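import Vale.Agent.P017.H735.D.Per

/-! # Boxes and good pairs, abstract form -/

set_option linter.all false

namespace Vale.Agent.P017.H735D

open Finset Real Filter Topology Vale.Agent.P017.H262

section

variable {r : ℕ} (D : Data r)

include D in
/-- the number of `m` -/
theorem MR_lower (i : ℕ) (hi : 20 ≤ i) : (1 / 100 : ℝ) * 2 ^ i ≤ ((MR r i).card : ℝ) := by
  set M : ℕ := 2 ^ i with hM
  have hM20 : 2 ^ 20 ≤ M := Nat.pow_le_pow_right (by norm_num) hi
  have h2M : 2 ^ (i + 1) = M + M := by rw [pow_succ]; ring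
  set A := (Ico M (M + M)).filter (fun n => n ≡ r [MOD 60]) with hA
  set S := Nat.sqrt (2 * M) with hS
  set B : ℕ → Finset ℕ := fun p => (Ico M (M + M)).filter (fun n => n ≡ r [MOD 60] ∧ p * p ∣ n) with hB
  have hsub : A ⊆ MR r i ∪ ((Icc 7 S).filter Nat.Prime).biUnion B := by
    intro n hn
    rw [hA, Finset.mem_filter, Finset.mem_Ico] at hn
    obtain ⟨⟨h1, h2⟩, h3⟩ := hn
    have h3' : n % 60 = r := by
      have h7 : n % 60 = r % 60 := h3
      have := D.lt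
      omega
    rw [Finset.mem_union]
    by_cases hsq : Squarefree n
    · left
      rw [MR, Finset.mem_filter, Finset.mem_Ico, h2M]
      exact ⟨⟨h1, h2⟩, hsq, h3'⟩
    · right
      rw [Nat.squarefree_iff_prime_squarefree] at hsq
      push Not at hsq
      obtain ⟨p, hp, hpn⟩ := hsq
      rw [Finset.mem_biUnion]
      refine ⟨p, ?_, ?_⟩
      · rw [Finset.mem_filter, Finset.mem_Icc]
        refine ⟨⟨?_, ?_⟩, hp⟩
        · by_contra hcon
          have hpd : p ∣ n := dvd_trans (Dvd.intro _ rfl) hpn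
          have hp7 : p < 7 := not_le.1 hcon
          have hrm := D.mods
          interval_cases p
          · exact absurd hp (by norm_num)
          · exact absurd hp (by norm_num)
          · omega
          · omega
          · exact absurd hp (by norm_num)
          · omega
          · exact absurd hp (by norm_num)
        · rw [hS, Nat.le_sqrt]
          have : p * p ≤ n := Nat.le_of_dvd (by omega) hpn
          omega
      · rw [hB, Finset.mem_filter, Finset.mem_Ico]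
        exact ⟨⟨h1, h2⟩, h3, hpn⟩
  have hBc : ∀ p ∈ (Icc 7 S).filter Nat.Prime, ((B p).card : ℝ) ≤ (M / 60) * (1 / (p : ℝ) ^ 2) + 1 := by
    intro p hp
    rw [Finset.mem_filter, Finset.mem_Icc] at hp
    have hcop : Nat.Coprime 60 (p * p) := by
      have : Nat.Coprime 60 p := by
        rw [Nat.coprime_comm, Nat.Prime.coprime_iff_not_dvd hp.2]
        intro hd
        have hle : p ≤ 60 := Nat.le_of_dvd (by norm_num) hd
        have h7 := hp.1.1
        have hpp := hp.2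
        interval_cases p <;> first | omega | (revert hpp; norm_num)
      exact Nat.Coprime.mul_right this this
    obtain ⟨r, hr1, hr2⟩ := Nat.chineseRemainder hcop r 0
    have h1 := (card_class M (60 * (p * p)) r (by have := hp.2.pos; positivity)).2
    have h2 : B p ⊆ (Ico M (M + M)).filter (fun n => n ≡ r [MOD 60 * (p * p)]) := by
      intro n hn
      rw [hB, Finset.mem_filter] at hn
      rw [Finset.mem_filter]
      refine ⟨hn.1, ?_⟩
      rw [← Nat.modEq_and_modEq_iff_modEq_mul hcop]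
      refine ⟨hn.2.1.trans hr1.symm, ?_⟩
      exact ((Nat.modEq_zero_iff_dvd).2 hn.2.2).trans hr2.symm
    have h3 : ((B p).card : ℝ) ≤ (((Ico M (M + M)).filter
        (fun n => n ≡ r [MOD 60 * (p * p)])).card : ℝ) := by
      exact_mod_cast Finset.card_le_card h2
    refine (h3.trans h1).trans (le_of_eq ?_)
    have hp0 : (p : ℝ) ≠ 0 := by exact_mod_cast hp.2.ne_zero
    push_cast
    field_simp
  have h1 := (card_class M 60 r (by norm_num)).1
  have h2 : (A.card : ℝ) ≤ ((MR r i).card : ℝ) + ∑ p ∈ (Icc 7 S).filter Nat.Prime, ((B p).card : ℝ) := by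
    have h3 : A.card ≤ (MR r i).card + ∑ p ∈ (Icc 7 S).filter Nat.Prime, (B p).card :=
      (Finset.card_le_card hsub).trans ((Finset.card_union_le _ _).trans
        (Nat.add_le_add_left Finset.card_biUnion_le _))
    exact_mod_cast h3
  have h3 : ∑ p ∈ (Icc 7 S).filter Nat.Prime, ((B p).card : ℝ) ≤ (M / 60) * (1 / 6) + S := by
    refine (Finset.sum_le_sum hBc).trans ?_
    have h4 : ∑ p ∈ (Icc 7 S).filter Nat.Prime, ((M / 60 : ℝ) * (1 / (p : ℝ) ^ 2) + 1) ≤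
        ∑ p ∈ Icc 7 S, ((M / 60 : ℝ) * (1 / (p : ℝ) ^ 2) + 1) :=
      Finset.sum_le_sum_of_subset_of_nonneg (Finset.filter_subset _ _) fun _ _ _ => by positivity
    refine h4.trans ?_
    rw [Finset.sum_add_distrib, ← Finset.mul_sum, Finset.sum_const, nsmul_eq_mul, mul_one]
    refine add_le_add (mul_le_mul_of_nonneg_left (inv_sq_le S) (by positivity)) ?_
    rw [Nat.card_Icc]
    exact_mod_cast (by omega : S + 1 - 7 ≤ S)
  have hSS : (S : ℝ) * S ≤ 2 * M := by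
    have : S * S ≤ 2 * M := Nat.sqrt_le _
    exact_mod_cast this
  have hM20' : (1048576 : ℝ) ≤ M := by
    have : (2 : ℕ) ^ 20 = 1048576 := by norm_num
    rw [this] at hM20
    exact_mod_cast hM20
  have hSM : (S : ℝ) ≤ M / 500 := by
    by_contra hcon
    push Not at hcon
    have h5 : (0 : ℝ) ≤ M / 500 := by positivity
    have : (M / 500 : ℝ) * (M / 500) < S * S := mul_self_lt_mul_self h5 hcon
    nlinarith
  have e : (2 : ℝ) ^ i = M := by rw [hM]; push_cast; rfl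
  rw [e]
  push_cast at h1
  linarith


end

section

variable {r : ℕ} {K n i : ℕ} {j' : Fin K → ℕ}

theorem szR (hn : 1 ≤ n) (hi : i < n) (hj : j' ∈ JJ K n) {m : ℕ} (hm : m ∈ MR r i) :
    Sz m (jj K n i j') := by
  obtain ⟨h1, h2, h3⟩ := facts hn hi hj
  constructor
  · intro l l' hll
    induction l using Fin.cases with
    | zero =>
      induction l' using Fin.cases with
      | zero => exact absurd hll (lt_irrefl _)
      | succ b =>
        rw [jj_zero, jj_succ]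
        have h4 := (mem_JJ hj b).2
        have h5 : 10 ^ (K + 1 - (b : ℕ)) * n ≤ 10 ^ (K + 1) * n :=
          Nat.mul_le_mul_right n (Nat.pow_le_pow_right (by norm_num) (by omega))
        omega
    | succ a =>
      induction l' using Fin.cases with
      | zero => exact absurd hll (by simp)
      | succ b =>
        rw [jj_succ, jj_succ]
        have hab : a < b := by simpa using hll
        have h4 := (mem_JJ hj b).2
        have h5 := (mem_JJ hj a).1
        have hb := b.2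
        have hab' : (a : ℕ) < b := hab
        have h6 : 10 * 10 ^ (K + 1 - (b : ℕ)) ≤ 10 ^ (K + 1 - (a : ℕ)) := by
          rw [← pow_succ']
          exact Nat.pow_le_pow_right (by norm_num) (by omega)
        have h7 : 10 * 10 ^ (K + 1 - (b : ℕ)) * n ≤ 10 ^ (K + 1 - (a : ℕ)) * n :=
          Nat.mul_le_mul_right n h6
        have h8 : 10 * 10 ^ (K + 1 - (b : ℕ)) * n = 10 * (10 ^ (K + 1 - (b : ℕ)) * n) := by ring
        omega
  · intro l
    rw [MR, Finset.mem_filter, Finset.mem_Ico] at hm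
    have h4 : m ≤ 2 ^ n := by
      have : 2 ^ (i + 1) ≤ 2 ^ n := Nat.pow_le_pow_right (by norm_num) (by omega)
      omega
    calc m ^ 10 ≤ (2 ^ n) ^ 10 := Nat.pow_le_pow_left h4 10
      _ = 2 ^ (10 * n) := by rw [← pow_mul, mul_comm]
      _ ≤ 2 ^ jj K n i j' l := Nat.pow_le_pow_right (by norm_num) (jj_ge hn hi hj l)


end

section

variable {r : ℕ} (D : Data r) {K n i : ℕ} {j' : Fin K → ℕ}

include D in
/-- main term -/
theorem T1R {jp : ℕ} (hjp : ∀ j : ℕ, jp ≤ j → (1 / 32 : ℝ) * (2 ^ j / j) ≤ ((PB j).card : ℝ) ∧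
    ((PB j).card : ℝ) ≤ 2 ^ j / j) (hn : 40 ≤ n) (hnp : jp ≤ n) (hj : j' ∈ JJ K n) :
    P' j' * 2 ^ J0 K n j' / (6400 * 10 ^ (K + 3)) ≤
      ∑ i ∈ range n, ((MR r i).card : ℝ) * ∏ l, ((PB (jj K n i j' l)).card : ℝ) := by
  have hn40 : (40 : ℝ) ≤ n := by exact_mod_cast hn
  have hNN : (NN K n : ℝ) = 10 ^ (K + 3) * n := by rw [NN]; push_cast; ring
  have hNN0 : (0 : ℝ) < NN K n := by rw [hNN]; positivity
  have h1 : ∀ i ∈ Ico 20 n, P' j' * 2 ^ J0 K n j' / (3200 * NN K n) ≤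
      ((MR r i).card : ℝ) * ∏ l, ((PB (jj K n i j' l)).card : ℝ) := by
    intro i hi
    rw [Finset.mem_Ico] at hi
    have hiJ := i_le (by omega) hi.2 hj
    obtain ⟨g1, g2, g3⟩ := facts (by omega) hi.2 hj
    have h4 : n ≤ 10 ^ (K + 1) * n := Nat.le_mul_of_pos_left _ (by positivity)
    have h2 := MR_lower D i hi.1
    have h3 := (hjp (J0 K n j' - i) (by omega)).1
    have hJpos : (0 : ℝ) < ((J0 K n j' - i : ℕ) : ℝ) := by
      have : 0 < J0 K n j' - i := by omega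
      exact_mod_cast this
    have hJN : ((J0 K n j' - i : ℕ) : ℝ) ≤ NN K n := by
      have : J0 K n j' - i ≤ NN K n := by omega
      exact_mod_cast this
    have h5 : (1 / 32 : ℝ) * (2 ^ (J0 K n j' - i) / NN K n) ≤ ((PB (J0 K n j' - i)).card : ℝ) := by
      refine le_trans (mul_le_mul_of_nonneg_left ?_ (by norm_num)) h3
      exact div_le_div_of_nonneg_left (by positivity) hJpos hJN
    rw [prod_jj]
    have e1 : (2 : ℝ) ^ J0 K n j' = 2 ^ i * 2 ^ (J0 K n j' - i) := by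
      rw [← pow_add]; congr 1; omega
    calc P' j' * 2 ^ J0 K n j' / (3200 * NN K n)
        = ((1 / 100 : ℝ) * 2 ^ i) * (((1 / 32 : ℝ) * (2 ^ (J0 K n j' - i) / NN K n)) * P' j') := by
          rw [e1]; field_simp; ring
      _ ≤ _ := mul_le_mul h2 (mul_le_mul_of_nonneg_right h5 (P'_nonneg _))
          (mul_nonneg (by positivity) (P'_nonneg _)) (Nat.cast_nonneg _)
  have h2 : ∑ i ∈ Ico 20 n, ((MR r i).card : ℝ) * ∏ l, ((PB (jj K n i j' l)).card : ℝ) ≤
      ∑ i ∈ range n, ((MR r i).card : ℝ) * ∏ l, ((PB (jj K n i j' l)).card : ℝ) := by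
    refine Finset.sum_le_sum_of_subset_of_nonneg ?_ fun _ _ _ =>
      mul_nonneg (Nat.cast_nonneg _) (Finset.prod_nonneg fun _ _ => Nat.cast_nonneg _)
    intro i
    simp only [Finset.mem_Ico, Finset.mem_range]
    exact fun h => h.2
  refine le_trans ?_ ((Finset.sum_le_sum h1).trans h2)
  rw [Finset.sum_const, Nat.card_Ico, nsmul_eq_mul, Nat.cast_sub (by omega)]
  have h3 : 0 ≤ P' j' * 2 ^ J0 K n j' := mul_nonneg (P'_nonneg _) (by positivity)
  have h4 : P' j' * 2 ^ J0 K n j' / (6400 * 10 ^ (K + 3)) =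
      (n / 2 : ℝ) * (P' j' * 2 ^ J0 K n j' / (3200 * NN K n)) := by
    rw [hNN]
    field_simp
    ring
  rw [h4]
  refine mul_le_mul_of_nonneg_right ?_ (div_nonneg h3 (by positivity))
  push_cast
  linarith

/-- the bad part -/
theorem T2R {jp : ℕ} (hjp : ∀ j : ℕ, jp ≤ j → (1 / 32 : ℝ) * (2 ^ j / j) ≤ ((PB j).card : ℝ) ∧
    ((PB j).card : ℝ) ≤ 2 ^ j / j) {CG : ℝ} (hCG : 0 < CG)
    (hG : ∀ Y : ℕ, 2 ≤ Y → ∑ m ∈ (Icc 1 Y).filter (fun m => Squarefree m ∧ m % 60 = r),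
      D.g m / (m : ℝ) ≤ CG * Real.log Y)
    (hn : 1 ≤ n) (hnp : jp ≤ n) (hj : j' ∈ JJ K n) :
    ∑ i ∈ range n, (∏ l, ((PB (jj K n i j' l)).card : ℝ)) * ((1 / 2 : ℝ) ^ K *
      ∑ m ∈ MR r i, D.g m) ≤ P' j' * 2 ^ J0 K n j' * ((1 / 2 : ℝ) ^ K * (4 * CG)) / 10 ^ (K + 3) := by
  have hn' : (1 : ℝ) ≤ n := by exact_mod_cast hn
  have hNN : (NN K n : ℝ) = 10 ^ (K + 3) * n := by rw [NN]; push_cast; ring
  have hNN0 : (0 : ℝ) < NN K n := by rw [hNN]; positivity
  have hGnn : ∀ m : ℕ, 0 ≤ D.g m := D.g_nonneg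
  have h1 : ∀ i ∈ range n, (∏ l, ((PB (jj K n i j' l)).card : ℝ)) * ((1 / 2 : ℝ) ^ K *
      ∑ m ∈ MR r i, D.g m) ≤
      (P' j' * 2 ^ J0 K n j' * ((1 / 2 : ℝ) ^ K * 4) / NN K n) * ∑ m ∈ MR r i, D.g m / (m : ℝ) := by
    intro i hi
    rw [Finset.mem_range] at hi
    have hiJ := i_le hn hi hj
    obtain ⟨g1, g2, g3⟩ := facts hn hi hj
    have h4 : n ≤ 10 ^ (K + 1) * n := Nat.le_mul_of_pos_left _ (by positivity)
    have h3 := (hjp (J0 K n j' - i) (by omega)).2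
    have hJpos : (0 : ℝ) < ((J0 K n j' - i : ℕ) : ℝ) := by
      have : 0 < J0 K n j' - i := by omega
      exact_mod_cast this
    have hJN : (NN K n : ℝ) / 2 ≤ ((J0 K n j' - i : ℕ) : ℝ) := by
      have : NN K n ≤ 2 * (J0 K n j' - i) := by omega
      have h' : (NN K n : ℝ) ≤ 2 * ((J0 K n j' - i : ℕ) : ℝ) := by exact_mod_cast this
      linarith
    have h5 : ((PB (J0 K n j' - i)).card : ℝ) ≤ 2 ^ (J0 K n j' - i) / (NN K n / 2) :=
      h3.trans (div_le_div_of_nonneg_left (by positivity) (by positivity) hJN)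
    have h6 : ∑ m ∈ MR r i, D.g m ≤ 2 ^ (i + 1) * ∑ m ∈ MR r i, D.g m / (m : ℝ) := by
      rw [Finset.mul_sum]
      refine Finset.sum_le_sum fun m hm => ?_
      rw [MR, Finset.mem_filter, Finset.mem_Ico] at hm
      have hm0 : (0 : ℝ) < m := by
        have : 0 < m := by have := Nat.one_le_two_pow (n := i); omega
        exact_mod_cast this
      have hm1 : (m : ℝ) ≤ 2 ^ (i + 1) := by exact_mod_cast hm.1.2.le
      rw [mul_div_assoc', le_div_iff₀ hm0]
      calc D.g m * m ≤ D.g m * 2 ^ (i + 1) := mul_le_mul_of_nonneg_left hm1 (hGnn m)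
        _ = _ := by ring
    have h7 : 0 ≤ ∑ m ∈ MR r i, D.g m := Finset.sum_nonneg fun m _ => hGnn m
    rw [prod_jj]
    have e1 : (2 : ℝ) ^ J0 K n j' = 2 ^ i * 2 ^ (J0 K n j' - i) := by
      rw [← pow_add]; congr 1; omega
    calc (((PB (J0 K n j' - i)).card : ℝ) * P' j') * ((1 / 2 : ℝ) ^ K * ∑ m ∈ MR r i, D.g m)
        ≤ ((2 ^ (J0 K n j' - i) / (NN K n / 2)) * P' j') * ((1 / 2 : ℝ) ^ K *
          (2 ^ (i + 1) * ∑ m ∈ MR r i, D.g m / (m : ℝ))) :=
          mul_le_mul (mul_le_mul_of_nonneg_right h5 (P'_nonneg _))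
            (mul_le_mul_of_nonneg_left h6 (by positivity)) (by positivity)
            (mul_nonneg (by positivity) (P'_nonneg _))
      _ = _ := by rw [e1, pow_succ]; field_simp; ring
  refine (Finset.sum_le_sum h1).trans ?_
  rw [← Finset.mul_sum]
  have h2 : ∑ i ∈ range n, ∑ m ∈ MR r i, D.g m / (m : ℝ) ≤ CG * n := by
    have hdisj : Set.PairwiseDisjoint (↑(range n)) (MR r) := by
      intro a _ b _ hab
      rw [Function.onFun, Finset.disjoint_left]
      intro m hm1 hm2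
      rw [MR, Finset.mem_filter, Finset.mem_Ico] at hm1 hm2
      apply hab
      by_contra hcon
      rcases Nat.lt_or_gt_of_ne hcon with h | h
      · have : 2 ^ (a + 1) ≤ 2 ^ b := Nat.pow_le_pow_right (by norm_num) h
        omega
      · have : 2 ^ (b + 1) ≤ 2 ^ a := Nat.pow_le_pow_right (by norm_num) h
        omega
    rw [← Finset.sum_biUnion hdisj]
    have h3 := hG (2 ^ n) (by
      calc 2 = 2 ^ 1 := by norm_num
        _ ≤ 2 ^ n := Nat.pow_le_pow_right (by norm_num) hn)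
    have h4 : Real.log ((2 ^ n : ℕ) : ℝ) ≤ n := by
      push_cast
      rw [Real.log_pow]
      have := Real.log_two_lt_d9
      nlinarith
    refine le_trans (Finset.sum_le_sum_of_subset_of_nonneg ?_ fun m _ _ =>
      div_nonneg (hGnn m) (Nat.cast_nonneg _)) (h3.trans (mul_le_mul_of_nonneg_left h4 hCG.le))
    intro m hm
    rw [Finset.mem_biUnion] at hm
    obtain ⟨i, hi, hm⟩ := hm
    rw [Finset.mem_range] at hi
    rw [MR, Finset.mem_filter, Finset.mem_Ico] at hm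
    rw [Finset.mem_filter, Finset.mem_Icc]
    have h5 : 2 ^ (i + 1) ≤ 2 ^ n := Nat.pow_le_pow_right (by norm_num) hi
    have h6 := Nat.one_le_two_pow (n := i)
    exact ⟨⟨by omega, by omega⟩, hm.2⟩
  have h3 : 0 ≤ P' j' * 2 ^ J0 K n j' := mul_nonneg (P'_nonneg _) (by positivity)
  calc _ ≤ (P' j' * 2 ^ J0 K n j' * ((1 / 2 : ℝ) ^ K * 4) / NN K n) * (CG * n) :=
        mul_le_mul_of_nonneg_left h2 (by positivity)
    _ = _ := by rw [hNN]; field_simp


open Classical in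
/-- good pairs in a box -/
noncomputable def cntR (K n i : ℕ) (j' : Fin K → ℕ) (m : ℕ) : ℕ :=
  ((Fintype.piFinset fun l : Fin (K + 1) => PB (jj K n i j' l)).filter
    (fun p : Fin (K + 1) → ℕ => D.Cr (m * ∏ l, p l))).card

open Classical in
/-- one `j'` -/
theorem one_jR {C : ℝ} (hC : 0 ≤ C) (hper : ∀ (m : ℕ) (j : Fin (K + 1) → ℕ), 0 < K + 1 → Squarefree m →
    m % 60 = r → Sz m j →
    (1 / 2 : ℝ) ^ ((K + 1) * (K + 1 - 1) / 2) * ((∏ l, ((PB (j l)).card : ℝ)) - badR D m j) -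
      C * (∏ l, (2 : ℝ) ^ j l) * ∑ l, (2 : ℝ) ^ (-(j l : ℝ) / 10) ≤
    (((Fintype.piFinset fun l => PB (j l)).filter
      (fun p : Fin (K + 1) → ℕ => D.Cr (m * ∏ l, p l))).card : ℝ))
    {jp : ℕ} (hjp : ∀ j : ℕ, jp ≤ j → (1 / 32 : ℝ) * (2 ^ j / j) ≤ ((PB j).card : ℝ) ∧
    ((PB j).card : ℝ) ≤ 2 ^ j / j) {CG : ℝ} (hCG : 0 < CG)
    (hG : ∀ Y : ℕ, 2 ≤ Y → ∑ m ∈ (Icc 1 Y).filter (fun m => Squarefree m ∧ m % 60 = r),
      D.g m / (m : ℝ) ≤ CG * Real.log Y)
    {B jb : ℕ} (hbad : ∀ (n i : ℕ) (j : Fin (K + 1) → ℕ), 1 ≤ n → i < n →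
    jb ≤ n → (∀ l, 10 * n ≤ j l) →
    ∑ m ∈ MR r i, badR D m j ≤ (∏ l, ((PB (j l)).card : ℝ)) * ((1 / 2 : ℝ) ^ (K + 1 - 1) *
      ∑ m ∈ MR r i, D.g m) + 32 * (K + 1 : ℕ) * (∏ l, (2 : ℝ) ^ j l) * 2 ^ i * (i + 2) / (n : ℝ) ^ B)
    (hK : (1 / 2 : ℝ) ^ K * (4 * CG) ≤ 1 / 12800)
    (hn : 40 ≤ n) (hnp : jp ≤ n) (hnb : jb ≤ n) (hj : j' ∈ JJ K n) :
    (1 / 2 : ℝ) ^ ((K + 1) * (K + 1 - 1) / 2) * (P' j' * 2 ^ J0 K n j' / (12800 * 10 ^ (K + 3)) -
      64 * (K + 1) * 2 ^ (NN K n - (K + 2)) * ((n : ℝ) ^ 2 / (n : ℝ) ^ B)) -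
      C * (K + 1) * 2 ^ (NN K n - (K + 2)) * (n * (1 / 2 : ℝ) ^ n) ≤
      ∑ i ∈ range n, ∑ m ∈ MR r i, (cntR D K n i j' m : ℝ) := by
  have hn1 : 1 ≤ n := by omega
  have hn40 : (40 : ℝ) ≤ n := by exact_mod_cast hn
  set Q : ℝ := (1 / 2 : ℝ) ^ ((K + 1) * (K + 1 - 1) / 2) with hQ
  have hQ0 : 0 < Q := by positivity
  set W₁ : ℝ := (2 : ℝ) ^ (NN K n - (K + 2)) with hD
  have hD0 : 0 < W₁ := by positivity
  have h1 : ∀ i ∈ range n, Q * (((MR r i).card : ℝ) * (∏ l, ((PB (jj K n i j' l)).card : ℝ)) -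
      ((∏ l, ((PB (jj K n i j' l)).card : ℝ)) * ((1 / 2 : ℝ) ^ K * ∑ m ∈ MR r i, D.g m) +
        32 * (K + 1) * W₁ * (i + 2) / (n : ℝ) ^ B)) - C * (K + 1) * W₁ * (1 / 2 : ℝ) ^ n ≤
      ∑ m ∈ MR r i, (cntR D K n i j' m : ℝ) := by
    intro i hi
    rw [Finset.mem_range] at hi
    have h2 : ∀ m ∈ MR r i, Q * ((∏ l, ((PB (jj K n i j' l)).card : ℝ)) - badR D m (jj K n i j')) -
        C * (∏ l, (2 : ℝ) ^ jj K n i j' l) * ∑ l, (2 : ℝ) ^ (-(jj K n i j' l : ℝ) / 10) ≤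
        (cntR D K n i j' m : ℝ) := by
      intro m hm
      have hm' := hm
      rw [MR, Finset.mem_filter] at hm'
      exact hper m (jj K n i j') (by omega) hm'.2.1 hm'.2.2 (szR hn1 hi hj hm)
    have h3 := Finset.sum_le_sum h2
    rw [Finset.sum_sub_distrib, ← Finset.mul_sum, Finset.sum_sub_distrib, Finset.sum_const,
      Finset.sum_const, nsmul_eq_mul, nsmul_eq_mul] at h3
    have h4 := hbad n i (jj K n i j') hn1 hi hnb (jj_ge hn1 hi hj)
    have h5 : (∏ l, (2 : ℝ) ^ jj K n i j' l) * 2 ^ i = W₁ := prod_two hn1 hi hj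
    have e1 : 32 * ((K + 1 : ℕ) : ℝ) * (∏ l, (2 : ℝ) ^ jj K n i j' l) * 2 ^ i * (i + 2) / (n : ℝ) ^ B =
        32 * (K + 1) * W₁ * (i + 2) / (n : ℝ) ^ B := by
      rw [← h5]; push_cast; ring
    rw [e1, Nat.add_sub_cancel] at h4
    have h6 : ((MR r i).card : ℝ) * (C * (∏ l, (2 : ℝ) ^ jj K n i j' l) *
        ∑ l, (2 : ℝ) ^ (-(jj K n i j' l : ℝ) / 10)) ≤ C * (K + 1) * W₁ * (1 / 2 : ℝ) ^ n := by
      have h7 : ((MR r i).card : ℝ) ≤ 2 ^ i := by
        have : (MR r i).card ≤ 2 ^ i := by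
          refine (Finset.card_filter_le _ _).trans ?_
          rw [Nat.card_Ico, pow_succ]; omega
        exact_mod_cast this
      have h8 : ∑ l, (2 : ℝ) ^ (-(jj K n i j' l : ℝ) / 10) ≤ (K + 1) * (1 / 2 : ℝ) ^ n := by
        have : ∀ l ∈ (univ : Finset (Fin (K + 1))), (2 : ℝ) ^ (-(jj K n i j' l : ℝ) / 10) ≤ (1 / 2 : ℝ) ^ n := by
          intro l _
          have h9 := jj_ge hn1 hi hj l
          have h9' : (10 * n : ℝ) ≤ jj K n i j' l := by exact_mod_cast h9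
          have e2 : (1 / 2 : ℝ) ^ n = 2 ^ (-(n : ℝ)) := by
            rw [Real.rpow_neg (by norm_num), Real.rpow_natCast]
            rw [one_div, inv_pow]
          rw [e2]
          apply Real.rpow_le_rpow_of_exponent_le (by norm_num)
          linarith
        have h10 := Finset.sum_le_sum this
        rw [Finset.sum_const, Finset.card_univ, Fintype.card_fin, nsmul_eq_mul] at h10
        push_cast at h10
        exact h10
      have h9 : 0 ≤ ∏ l, (2 : ℝ) ^ jj K n i j' l := Finset.prod_nonneg fun _ _ => by positivity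
      have h10 : 0 ≤ ∑ l, (2 : ℝ) ^ (-(jj K n i j' l : ℝ) / 10) :=
        Finset.sum_nonneg fun _ _ => by positivity
      calc _ ≤ 2 ^ i * (C * (∏ l, (2 : ℝ) ^ jj K n i j' l) * ((K + 1) * (1 / 2 : ℝ) ^ n)) :=
            mul_le_mul h7 (mul_le_mul_of_nonneg_left h8 (mul_nonneg hC h9))
              (mul_nonneg (mul_nonneg hC h9) h10) (by positivity)
        _ = C * (K + 1) * ((∏ l, (2 : ℝ) ^ jj K n i j' l) * 2 ^ i) * (1 / 2 : ℝ) ^ n := by ring
        _ = _ := by rw [h5]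
    have h7 : Q * (((MR r i).card : ℝ) * (∏ l, ((PB (jj K n i j' l)).card : ℝ)) -
      ((∏ l, ((PB (jj K n i j' l)).card : ℝ)) * ((1 / 2 : ℝ) ^ K * ∑ m ∈ MR r i, D.g m) +
        32 * (K + 1) * W₁ * (i + 2) / (n : ℝ) ^ B)) ≤
        Q * (((MR r i).card : ℝ) * (∏ l, ((PB (jj K n i j' l)).card : ℝ)) -
          ∑ m ∈ MR r i, badR D m (jj K n i j')) :=
      mul_le_mul_of_nonneg_left (by linarith) hQ0.le
    linarith
  refine le_trans ?_ (Finset.sum_le_sum h1)
  rw [Finset.sum_sub_distrib, ← Finset.mul_sum, Finset.sum_sub_distrib, Finset.sum_add_distrib,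
    Finset.sum_const, Finset.card_range, nsmul_eq_mul]
  have h2 := T1R D (j' := j') (K := K) hjp hn hnp hj
  have h3 := T2R D (j' := j') (K := K) hjp hCG hG hn1 hnp hj
  have h4 : P' j' * 2 ^ J0 K n j' * ((1 / 2 : ℝ) ^ K * (4 * CG)) / 10 ^ (K + 3) ≤
      P' j' * 2 ^ J0 K n j' / (12800 * 10 ^ (K + 3)) := by
    have h5 : 0 ≤ P' j' * 2 ^ J0 K n j' := mul_nonneg (P'_nonneg _) (by positivity)
    calc _ ≤ P' j' * 2 ^ J0 K n j' * (1 / 12800) / 10 ^ (K + 3) := by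
          refine div_le_div_of_nonneg_right (mul_le_mul_of_nonneg_left hK h5) (by positivity)
      _ = _ := by field_simp
  have h5 : ∑ i ∈ range n, 32 * (K + 1) * W₁ * ((i : ℝ) + 2) / (n : ℝ) ^ B ≤
      64 * (K + 1) * W₁ * ((n : ℝ) ^ 2 / (n : ℝ) ^ B) := by
    have : ∀ i ∈ range n, 32 * (K + 1) * W₁ * ((i : ℝ) + 2) / (n : ℝ) ^ B ≤
        64 * (K + 1) * W₁ * n / (n : ℝ) ^ B := by
      intro i hi
      rw [Finset.mem_range] at hi
      have hi' : (i : ℝ) ≤ n := by exact_mod_cast hi.le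
      refine div_le_div_of_nonneg_right ?_ (by positivity)
      have h6 : 0 ≤ (K + 1 : ℝ) * W₁ := by positivity
      nlinarith
    refine (Finset.sum_le_sum this).trans (le_of_eq ?_)
    rw [Finset.sum_const, Finset.card_range, nsmul_eq_mul]
    ring
  have e3 : P' j' * 2 ^ J0 K n j' / (6400 * 10 ^ (K + 3)) =
      P' j' * 2 ^ J0 K n j' / (12800 * 10 ^ (K + 3)) + P' j' * 2 ^ J0 K n j' / (12800 * 10 ^ (K + 3)) := by
    field_simp; ring
  have h6 : P' j' * 2 ^ J0 K n j' / (12800 * 10 ^ (K + 3)) -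
      64 * (K + 1) * W₁ * ((n : ℝ) ^ 2 / (n : ℝ) ^ B) ≤
      ∑ i ∈ range n, ((MR r i).card : ℝ) * (∏ l, ((PB (jj K n i j' l)).card : ℝ)) -
      (∑ i ∈ range n, (∏ l, ((PB (jj K n i j' l)).card : ℝ)) * ((1 / 2 : ℝ) ^ K * ∑ m ∈ MR r i, D.g m) +
        ∑ i ∈ range n, 32 * (K + 1) * W₁ * ((i : ℝ) + 2) / (n : ℝ) ^ B) := by
    linarith
  have h7 := mul_le_mul_of_nonneg_left h6 hQ0.le
  have e4 : C * (K + 1) * W₁ * (n * (1 / 2 : ℝ) ^ n) = n * (C * (K + 1) * W₁ * (1 / 2 : ℝ) ^ n) := by ring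
  rw [e4]
  linarith


end

end Vale.Agent.P017.H735D
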