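import Vale.Agent.P017.H735.D.Asm

/-! # Positive lower density, abstract form -/

set_option linter.all false

namespace Vale.Agent.P017.H735D

open Finset Real Filter Topology Vale.Agent.P017.H262

section
variable {r : ℕ} (D : Data r) {K n i : ℕ} {j' : Fin K → ℕ} {m : ℕ} {p : Fin (K + 1) → ℕ}

include D in
theorem antiR (hn : 1 ≤ n) (hi : i < n) (hj : j' ∈ JJ K n) (hm : m ∈ MR r i)
    (hp : p ∈ Fintype.piFinset fun l : Fin (K + 1) => PB (jj K n i j' l)) : StrictAnti p := by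
  have hsz := szR hn hi hj hm
  rw [MR, Finset.mem_filter] at hm
  rw [Fintype.mem_piFinset] at hp
  intro l l' hll
  have h1 := hsz.sep l l' hll
  have h2 := sz_pos D hsz hm.2.2 l'
  have h3 : 2 ^ (jj K n i j' l' + 1) ≤ 2 ^ jj K n i j' l := Nat.pow_le_pow_right (by norm_num) (by omega)
  have h4 := (H12.mem_PB (hp l')).2.1
  have h5 := (H12.mem_PB (hp l)).1
  omega

theorem range_eqR (hn : 1 ≤ n) (hi : i < n) (hj : j' ∈ JJ K n) (hm : m ∈ MR r i)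
    (hp : p ∈ Fintype.piFinset fun l : Fin (K + 1) => PB (jj K n i j' l)) :
    Set.range p = {q | q.Prime ∧ q ∣ m * ∏ l, p l ∧ 2 ^ n ≤ q} := by
  rw [Fintype.mem_piFinset] at hp
  rw [MR, Finset.mem_filter, Finset.mem_Ico] at hm
  ext q
  simp only [Set.mem_range, Set.mem_setOf_eq]
  constructor
  · rintro ⟨l, rfl⟩
    obtain ⟨h1, _, h2, _⟩ := H12.mem_PB (hp l)
    refine ⟨h2, ?_, ?_⟩
    · exact Dvd.dvd.mul_left (Finset.dvd_prod_of_mem p (Finset.mem_univ l)) m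
    · have h3 := jj_ge hn hi hj l
      have : 2 ^ n ≤ 2 ^ jj K n i j' l := Nat.pow_le_pow_right (by norm_num) (by omega)
      omega
  · rintro ⟨h1, h2, h3⟩
    rcases (Nat.Prime.dvd_mul h1).1 h2 with h4 | h4
    · exfalso
      have h5 : 0 < m := by have := Nat.one_le_two_pow (n := i); omega
      have h6 := Nat.le_of_dvd h5 h4
      have h7 : 2 ^ (i + 1) ≤ 2 ^ n := Nat.pow_le_pow_right (by norm_num) (by omega)
      omega
    · obtain ⟨l, _, h5⟩ := (Prime.dvd_finset_prod_iff h1.prime p).1 h4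
      exact ⟨l, ((Nat.prime_dvd_prime_iff_eq h1 (H12.mem_PB (hp l)).2.2.1).1 h5).symm⟩

include D in
theorem inj_auxR {i₂ : ℕ} {j₂ : Fin K → ℕ} {m₂ : ℕ} {p₂ : Fin (K + 1) → ℕ} (hn : 1 ≤ n)
    (hi : i < n) (hj : j' ∈ JJ K n) (hm : m ∈ MR r i)
    (hp : p ∈ Fintype.piFinset fun l : Fin (K + 1) => PB (jj K n i j' l))
    (hi₂ : i₂ < n) (hj₂ : j₂ ∈ JJ K n) (hm₂ : m₂ ∈ MR r i₂)
    (hp₂ : p₂ ∈ Fintype.piFinset fun l : Fin (K + 1) => PB (jj K n i₂ j₂ l))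
    (h : m * ∏ l, p l = m₂ * ∏ l, p₂ l) : j' = j₂ ∧ i = i₂ ∧ m = m₂ ∧ p = p₂ := by
  have h1 := range_eqR hn hi hj hm hp
  have h2 := range_eqR hn hi₂ hj₂ hm₂ hp₂
  rw [h, ← h2] at h1
  have hpp : p = p₂ := Set.range_injOn_strictAnti (antiR D hn hi hj hm hp) (antiR D hn hi₂ hj₂ hm₂ hp₂) h1
  rw [Fintype.mem_piFinset] at hp hp₂
  have hmm : m = m₂ := by
    rw [hpp] at h
    refine Nat.eq_of_mul_eq_mul_right ?_ h
    exact Finset.prod_pos fun l _ => (H12.mem_PB (hp₂ l)).2.2.1.pos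
  have hii : i = i₂ := by
    rw [MR, Finset.mem_filter, Finset.mem_Ico] at hm hm₂
    rw [← hmm] at hm₂
    exact dyadic_unique hm.1.1 hm.1.2 hm₂.1.1 hm₂.1.2
  refine ⟨?_, hii, hmm, hpp⟩
  funext l
  have h3 := H12.mem_PB (hp l.succ)
  have h4 := H12.mem_PB (hp₂ l.succ)
  rw [← hpp] at h4
  rw [jj_succ] at h3 h4
  exact dyadic_unique h3.1 h3.2.1 h4.1 h4.2.1

theorem sizeR (hn : 1 ≤ n) (hi : i < n) (hj : j' ∈ JJ K n) (hm : m ∈ MR r i)
    (hp : p ∈ Fintype.piFinset fun l : Fin (K + 1) => PB (jj K n i j' l)) :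
    m * ∏ l, p l ≤ 2 ^ NN K n := by
  obtain ⟨g1, g2, g3⟩ := facts hn hi hj
  rw [Fintype.mem_piFinset] at hp
  rw [MR, Finset.mem_filter, Finset.mem_Ico] at hm
  have h1 : ∏ l, p l ≤ ∏ l, 2 ^ (jj K n i j' l + 1) :=
    Finset.prod_le_prod (fun _ _ => Nat.zero_le _) fun l _ => (H12.mem_PB (hp l)).2.1.le
  have h2 : ∏ l, 2 ^ (jj K n i j' l + 1) = 2 ^ (J0 K n j' - i + ∑ l, j' l + (K + 1)) := by
    rw [Finset.prod_pow_eq_pow_sum, Finset.sum_add_distrib, Finset.sum_const, Finset.card_univ,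
      Fintype.card_fin, Fin.sum_univ_succ, jj_zero, smul_eq_mul, mul_one]
    congr 1
  calc m * ∏ l, p l ≤ 2 ^ (i + 1) * 2 ^ (J0 K n j' - i + ∑ l, j' l + (K + 1)) := by
        rw [← h2]; exact Nat.mul_le_mul hm.1.2.le h1
    _ = 2 ^ NN K n := by
        rw [← pow_add]; congr 1; omega

open Classical in
/-- the numbers to count -/
noncomputable def TR (x : ℕ) : Finset ℕ :=
  (Icc 1 x).filter (fun d => Squarefree d ∧ d % 60 = r ∧ D.Cr d)

theorem count_leR {K n : ℕ} (hn : 1 ≤ n) :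
    ∑ j' ∈ JJ K n, ∑ i ∈ range n, ∑ m ∈ MR r i, cntR D K n i j' m ≤ (TR D (2 ^ NN K n)).card := by
  classical
  set A := (JJ K n).sigma (fun j' => (range n).sigma (fun i => (MR r i).sigma (fun m =>
    (Fintype.piFinset fun l : Fin (K + 1) => PB (jj K n i j' l)).filter
    (fun p : Fin (K + 1) → ℕ => D.Cr (m * ∏ l, p l))))) with hA
  have hcard : A.card = ∑ j' ∈ JJ K n, ∑ i ∈ range n, ∑ m ∈ MR r i, cntR D K n i j' m := by
    rw [hA, Finset.card_sigma]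
    refine Finset.sum_congr rfl fun j' _ => ?_
    rw [Finset.card_sigma]
    refine Finset.sum_congr rfl fun i _ => ?_
    rw [Finset.card_sigma]
    refine Finset.sum_congr rfl fun m _ => ?_
    rfl
  rw [← hcard]
  refine Finset.card_le_card_of_injOn (fun x => x.2.2.1 * ∏ l, x.2.2.2 l) ?_ ?_
  · rintro ⟨j', i, m, p⟩ hx
    simp only [hA, Finset.coe_sigma, Set.mem_sigma_iff, Finset.mem_coe, Finset.mem_range,
      Finset.mem_filter] at hx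
    obtain ⟨h1, h2, h3, h4, h5⟩ := hx
    have hsz := szR hn h2 h1 h3
    have h3' := h3
    rw [MR, Finset.mem_filter, Finset.mem_Ico] at h3'
    have hadm := adm_of_mem' D hsz h3'.2.2 h4
    have hsq : Squarefree (m * ∏ l, p l) := H12.sqf_PP h3'.2.1 hadm
    simp only [TR, Finset.coe_filter, Finset.mem_Icc, Set.mem_setOf_eq]
    refine ⟨⟨Nat.one_le_iff_ne_zero.2 hsq.ne_zero, sizeR hn h2 h1 h3 h4⟩, hsq, ?_, h5⟩
    rw [Nat.mul_mod, h3'.2.2, prod_mod h4, mul_one]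
    exact Nat.mod_eq_of_lt D.lt
  · rintro ⟨j', i, m, p⟩ hx ⟨j₂, i₂, m₂, p₂⟩ hy hxy
    simp only [hA, Finset.coe_sigma, Set.mem_sigma_iff, Finset.mem_coe, Finset.mem_range,
      Finset.mem_filter] at hx hy
    obtain ⟨h1, h2, h3, h4, _⟩ := hx
    obtain ⟨k1, k2, k3, k4, _⟩ := hy
    obtain ⟨e1, e2, e3, e4⟩ := inj_auxR D hn h2 h1 h3 h4 k2 k1 k3 k4 hxy
    subst e1 e2 e3 e4
    rfl


/-- along a geometric sequence -/
theorem dens_geomR : ∃ K : ℕ, ∃ c : ℝ, 0 < c ∧ ∃ n₀ : ℕ, ∀ n : ℕ, n₀ ≤ n →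
    c * 2 ^ NN K n ≤ ((TR D (2 ^ NN K n)).card : ℝ) := by
  classical
  obtain ⟨CG, hCG, hG⟩ := D.gavg
  obtain ⟨jp, hjp1, hjp⟩ := PB_bounds
  -- choose `K`
  obtain ⟨K, hK⟩ : ∃ K : ℕ, (1 / 2 : ℝ) ^ K * (4 * CG) ≤ 1 / 12800 := by
    have h := (tendsto_pow_atTop_nhds_zero_of_lt_one (show (0 : ℝ) ≤ 1 / 2 by norm_num)
      (by norm_num)).mul_const (4 * CG)
    rw [zero_mul] at h
    obtain ⟨K, hK⟩ := (h.eventually (gt_mem_nhds (show (0 : ℝ) < 1 / 12800 by norm_num))).exists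
    exact ⟨K, hK.le⟩
  obtain ⟨C, hC, hper⟩ := perR D (K + 1)
  obtain ⟨jb, hbad⟩ := sum_badR D (k := K + 1) (by omega) (K + 3)
  set Q : ℝ := (1 / 2 : ℝ) ^ ((K + 1) * (K + 1 - 1) / 2) with hQ
  have hQ0 : 0 < Q := by positivity
  -- constants
  set A : ℝ := (1 / 64 : ℝ) ^ K / (12800 * 10 ^ (K + 3)) with hA
  have hA0 : 0 < A := by positivity
  set b1 : ℝ := ((10 : ℝ) ^ (K + 1)) ^ K * (64 * (K + 1)) with hb1
  set b2 : ℝ := ((10 : ℝ) ^ (K + 1)) ^ K * (C * (K + 1)) with hb2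
  have hb10 : 0 ≤ b1 := by positivity
  have hb20 : 0 ≤ b2 := by positivity
  have hlim1 : Tendsto (fun n : ℕ => b1 * (1 / (n : ℝ))) atTop (𝓝 0) := by
    have := (tendsto_one_div_atTop_nhds_zero_nat (𝕜 := ℝ)).const_mul b1
    rwa [mul_zero] at this
  have hlim2 : Tendsto (fun n : ℕ => b2 * ((n : ℝ) ^ (K + 1) / (2 : ℝ) ^ n)) atTop (𝓝 0) := by
    have := (tendsto_pow_const_div_const_pow_of_one_lt (K + 1) (show (1 : ℝ) < 2 by norm_num)).const_mul b2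
    rwa [mul_zero] at this
  have hev : ∀ᶠ n : ℕ in atTop, 40 ≤ n ∧ jp ≤ n ∧ jb ≤ n ∧ b1 * (1 / (n : ℝ)) ≤ A / 4 ∧
      b2 * ((n : ℝ) ^ (K + 1) / (2 : ℝ) ^ n) ≤ Q * A / 4 := by
    filter_upwards [eventually_ge_atTop 40, eventually_ge_atTop jp, eventually_ge_atTop jb,
      hlim1.eventually (gt_mem_nhds (show (0 : ℝ) < A / 4 by positivity)),
      hlim2.eventually (gt_mem_nhds (show (0 : ℝ) < Q * A / 4 by positivity))] with n h1 h2 h3 h4 h5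
    exact ⟨h1, h2, h3, h4.le, h5.le⟩
  obtain ⟨n₀, hn₀⟩ := eventually_atTop.1 hev
  refine ⟨K, Q * A / 2 * (1 / 2) ^ (K + 2), by positivity, n₀, fun n hn => ?_⟩
  obtain ⟨h1, h2, h3, h4, h5⟩ := hn₀ n hn
  have hn1 : 1 ≤ n := by omega
  have hn0 : (0 : ℝ) < n := by exact_mod_cast hn1
  set W₁ : ℝ := (2 : ℝ) ^ (NN K n - (K + 2)) with hD
  have hD0 : 0 < W₁ := by positivity
  have hone : ∀ j' ∈ JJ K n, Q * (P' j' * 2 ^ J0 K n j' / (12800 * 10 ^ (K + 3)) -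
      64 * (K + 1) * W₁ * ((n : ℝ) ^ 2 / (n : ℝ) ^ (K + 3))) -
      C * (K + 1) * W₁ * (n * (1 / 2 : ℝ) ^ n) ≤
      ∑ i ∈ range n, ∑ m ∈ MR r i, (cntR D K n i j' m : ℝ) := fun j' hj =>
    one_jR D hC hper hjp hCG hG hbad hK h1 h2 h3 hj
  have h6 := Finset.sum_le_sum hone
  rw [Finset.sum_sub_distrib, ← Finset.mul_sum, Finset.sum_sub_distrib, Finset.sum_const,
    Finset.sum_const, nsmul_eq_mul, nsmul_eq_mul, ← Finset.sum_div] at h6
  have h7 : ∑ j' ∈ JJ K n, ∑ i ∈ range n, ∑ m ∈ MR r i, (cntR D K n i j' m : ℝ) ≤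
      ((TR D (2 ^ NN K n)).card : ℝ) := by
    have := count_leR D (K := K) hn1
    exact_mod_cast this
  have h8 := W_sum (K := K) hjp hn1 h2
  have h9 := JJ_card (K := K) (n := n)
  have e1 : ((10 : ℝ) ^ (K + 1) * n) ^ K = ((10 : ℝ) ^ (K + 1)) ^ K * (n : ℝ) ^ K := mul_pow _ _ _
  rw [e1] at h9
  -- main
  have h10 : W₁ * A ≤ (∑ j' ∈ JJ K n, P' j' * 2 ^ J0 K n j') / (12800 * 10 ^ (K + 3)) := by
    rw [le_div_iff₀ (by positivity)]
    refine le_trans (le_of_eq ?_) h8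
    rw [hA, ← hD]
    field_simp
  have h11 : ((JJ K n).card : ℝ) * (64 * (K + 1) * W₁ * ((n : ℝ) ^ 2 / (n : ℝ) ^ (K + 3))) ≤ W₁ * (A / 4) := by
    calc _ ≤ (((10 : ℝ) ^ (K + 1)) ^ K * (n : ℝ) ^ K) * (64 * (K + 1) * W₁ * ((n : ℝ) ^ 2 / (n : ℝ) ^ (K + 3))) :=
          mul_le_mul_of_nonneg_right h9 (by positivity)
      _ = W₁ * (b1 * (1 / n)) := by
          rw [hb1, show K + 3 = K + 2 + 1 by ring, pow_succ (n : ℝ) (K + 2), pow_add (n : ℝ) K 2]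
          field_simp
      _ ≤ _ := mul_le_mul_of_nonneg_left h4 hD0.le
  have h12 : ((JJ K n).card : ℝ) * (C * (K + 1) * W₁ * (n * (1 / 2 : ℝ) ^ n)) ≤ W₁ * (Q * A / 4) := by
    calc _ ≤ (((10 : ℝ) ^ (K + 1)) ^ K * (n : ℝ) ^ K) * (C * (K + 1) * W₁ * (n * (1 / 2 : ℝ) ^ n)) :=
          mul_le_mul_of_nonneg_right h9 (by positivity)
      _ = W₁ * (b2 * ((n : ℝ) ^ (K + 1) / (2 : ℝ) ^ n)) := by
          rw [hb2, pow_succ (n : ℝ) K, one_div, inv_pow]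
          field_simp
      _ ≤ _ := mul_le_mul_of_nonneg_left h5 hD0.le
  have h13 : Q * (W₁ * A - W₁ * (A / 4)) ≤
      Q * ((∑ j' ∈ JJ K n, P' j' * 2 ^ J0 K n j') / (12800 * 10 ^ (K + 3)) -
        ((JJ K n).card : ℝ) * (64 * (K + 1) * W₁ * ((n : ℝ) ^ 2 / (n : ℝ) ^ (K + 3)))) :=
    mul_le_mul_of_nonneg_left (by linarith) hQ0.le
  have e2 : (2 : ℝ) ^ NN K n = W₁ * 2 ^ (K + 2) := by
    rw [hD, ← pow_add]
    congr 1
    have h14 := K_le K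
    have h15 : 10 ^ (K + 1) ≤ 10 ^ (K + 3) * n := by
      calc 10 ^ (K + 1) ≤ 10 ^ (K + 3) := Nat.pow_le_pow_right (by norm_num) (by omega)
        _ ≤ 10 ^ (K + 3) * n := Nat.le_mul_of_pos_right _ hn1
    rw [NN]
    omega
  have e3 : Q * A / 2 * (1 / 2) ^ (K + 2) * 2 ^ NN K n = Q * A / 2 * W₁ := by
    rw [e2, one_div, inv_pow]
    field_simp
  rw [e3]
  have hpos : 0 < Q * (W₁ * A) := by positivity
  nlinarith

/-- **positive lower density** -/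
theorem densR : ∃ c : ℝ, 0 < c ∧ ∃ X₀ : ℕ, ∀ X : ℕ, X₀ ≤ X → c * X ≤ ((TR D X).card : ℝ) := by
  classical
  obtain ⟨K, c, hc, n₀, h⟩ := dens_geomR D
  set M : ℕ := 10 ^ (K + 3) with hM
  have hM0 : 0 < M := by positivity
  refine ⟨c / 2 ^ M, by positivity, 2 ^ (M * (n₀ + 1)), fun X hX => ?_⟩
  set n : ℕ := Nat.log 2 X / M with hn
  have hX0 : X ≠ 0 := by
    have : 0 < 2 ^ (M * (n₀ + 1)) := by positivity
    omega
  have h1 : M * (n₀ + 1) ≤ Nat.log 2 X := Nat.le_log_of_pow_le (by norm_num) hX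
  have h2 : n₀ ≤ n := by
    have : n₀ + 1 ≤ n := (Nat.le_div_iff_mul_le hM0).2 (by rw [mul_comm]; exact h1)
    omega
  have h3 : NN K n = M * n := rfl
  have h4 : M * n ≤ Nat.log 2 X := Nat.mul_div_le _ _
  have h5 : Nat.log 2 X < M * n + M := by
    have := Nat.lt_mul_div_succ (Nat.log 2 X) hM0
    rw [← hn] at this
    calc Nat.log 2 X < M * (n + 1) := this
      _ = M * n + M := by ring
  have h6 : 2 ^ (M * n) ≤ X :=
    (Nat.pow_le_pow_right (by norm_num) h4).trans (Nat.pow_log_le_self 2 hX0)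
  have h7 : X ≤ 2 ^ (M * n) * 2 ^ M := by
    have h8 : X < 2 ^ (Nat.log 2 X + 1) := Nat.lt_pow_succ_log_self (by norm_num) X
    have h9 : 2 ^ (Nat.log 2 X + 1) ≤ 2 ^ (M * n + M) := Nat.pow_le_pow_right (by norm_num) h5
    rw [pow_add 2 (M * n) M] at h9
    exact h8.le.trans h9
  have h8 := h n h2
  rw [h3] at h8
  have h9 : ((TR D (2 ^ (M * n))).card : ℝ) ≤ ((TR D X).card : ℝ) := by
    have : TR D (2 ^ (M * n)) ⊆ TR D X := by
      intro d hd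
      rw [TR, Finset.mem_filter, Finset.mem_Icc] at hd ⊢
      exact ⟨⟨hd.1.1, hd.1.2.trans h6⟩, hd.2⟩
    exact_mod_cast Finset.card_le_card this
  have h10 : (X : ℝ) ≤ 2 ^ (M * n) * 2 ^ M := by exact_mod_cast h7
  calc c / 2 ^ M * X ≤ c / 2 ^ M * (2 ^ (M * n) * 2 ^ M) :=
        mul_le_mul_of_nonneg_left h10 (by positivity)
    _ = c * 2 ^ (M * n) := by field_simp
    _ ≤ _ := h8.trans h9


end

end Vale.Agent.P017.H735D
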