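import Vale.Agent.P017.H735.D.FlipB2
import Vale.Agent.P017.H262.PerM
import Vale.Agent.P017.H262.GAvg

/-!
# The first moment of bad vectors, `3` inert and `5` split
-/

set_option linter.all false

namespace Vale.Agent.P017.H735D

open Finset Real Vale.Agent.P017.H262 Vale.Agent.P017.H12

/-- weight of the solutions of the right kernel supported on `m` -/
noncomputable def GB (m : ℕ) : ℝ :=
  ∑ a ∈ m.divisors.filter (fun a => ∀ q ∈ (m / a).primeFactors,
    jacobiSym ((fv a * a : ℕ) : ℤ) q = 1), (1 / 2 : ℝ) ^ a.primeFactors.card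

/-- weight of the solutions of the left kernel supported on `m` -/
noncomputable def GB' (m : ℕ) : ℝ :=
  ∑ a ∈ m.divisors.filter (fun a => ∀ q ∈ (m / a).primeFactors,
    jacobiSym (q : ℤ) (th a * a) = 1), (1 / 2 : ℝ) ^ a.primeFactors.card

theorem G_nonneg (m : ℕ) : 0 ≤ G m := Finset.sum_nonneg fun _ _ => by positivity
theorem G'_nonneg (m : ℕ) : 0 ≤ G' m := Finset.sum_nonneg fun _ _ => by positivity
theorem GB_nonneg (m : ℕ) : 0 ≤ GB m := Finset.sum_nonneg fun _ _ => by positivity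
theorem GB'_nonneg (m : ℕ) : 0 ≤ GB' m := Finset.sum_nonneg fun _ _ => by positivity

theorem card_pf_mul {c a : ℕ} (hc : c.Prime) (ha : a ≠ 0) (hca : ¬ c ∣ a) :
    (c * a).primeFactors.card = a.primeFactors.card + 1 := by
  rw [Nat.primeFactors_mul hc.ne_zero ha, hc.primeFactors, ← Finset.insert_eq,
    Finset.card_insert_of_notMem fun h => hca (Nat.dvd_of_mem_primeFactors h)]

theorem shift_le {m c : ℕ} (hm : m ≠ 0) (hc : c.Prime) (hcm : ¬ c ∣ m) (f : ℕ → ℕ)
    (P : ℕ → ℕ → Prop) [∀ a b, Decidable (P a b)] :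
    ∑ a ∈ m.divisors.filter (fun a => f a = c ∧ P (f a * a) (m / a)),
      (1 / 2 : ℝ) ^ a.primeFactors.card ≤
      2 * ∑ b ∈ (c * m).divisors.filter (fun b => P b (c * m / b)),
        (1 / 2 : ℝ) ^ b.primeFactors.card := by
  set A := m.divisors.filter (fun a => f a = c ∧ P (f a * a) (m / a)) with hA
  have h1 : ∀ a ∈ A, (1 / 2 : ℝ) ^ a.primeFactors.card =
      2 * (1 / 2 : ℝ) ^ (c * a).primeFactors.card := by
    intro a ha
    rw [hA, Finset.mem_filter, Nat.mem_divisors] at ha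
    obtain ⟨⟨h1, h2⟩, h3, h4⟩ := ha
    have ha0 : a ≠ 0 := fun h => h2 (by rw [h] at h1; exact zero_dvd_iff.1 h1)
    rw [card_pf_mul hc ha0 fun h => hcm (h.trans h1), pow_succ]
    ring
  rw [Finset.sum_congr rfl h1, ← Finset.mul_sum]
  refine mul_le_mul_of_nonneg_left ?_ (by norm_num)
  have h2 : ∑ a ∈ A, (1 / 2 : ℝ) ^ (c * a).primeFactors.card =
      ∑ b ∈ A.image (fun a => c * a), (1 / 2 : ℝ) ^ b.primeFactors.card := by
    rw [Finset.sum_image]
    intro x _ y _ h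
    exact Nat.eq_of_mul_eq_mul_left hc.pos h
  rw [h2]
  refine Finset.sum_le_sum_of_subset_of_nonneg ?_ fun _ _ _ => by positivity
  intro b hb
  rw [Finset.mem_image] at hb
  obtain ⟨a, ha, rfl⟩ := hb
  rw [hA, Finset.mem_filter, Nat.mem_divisors] at ha
  obtain ⟨⟨h1, h2⟩, h3, h4⟩ := ha
  rw [Finset.mem_filter, Nat.mem_divisors]
  refine ⟨⟨Nat.mul_dvd_mul_left c h1, Nat.mul_ne_zero hc.ne_zero h2⟩, ?_⟩
  rw [Nat.mul_div_mul_left _ _ hc.pos]
  rw [h3] at h4
  exact h4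

theorem split_le {m c : ℕ} (hm : m ≠ 0) (hc : c.Prime) (hcm : ¬ c ∣ m) (f : ℕ → ℕ)
    (hf : ∀ a, f a = c ∨ f a = 1)
    (P : ℕ → ℕ → Prop) [∀ a b, Decidable (P a b)] :
    ∑ a ∈ m.divisors.filter (fun a => P (f a * a) (m / a)), (1 / 2 : ℝ) ^ a.primeFactors.card ≤
      ∑ a ∈ m.divisors.filter (fun a => P a (m / a)), (1 / 2 : ℝ) ^ a.primeFactors.card +
      2 * ∑ b ∈ (c * m).divisors.filter (fun b => P b (c * m / b)),
        (1 / 2 : ℝ) ^ b.primeFactors.card := by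
  have h1 := shift_le hm hc hcm f P
  refine le_trans ?_ (add_le_add (le_refl _) h1)
  rw [← Finset.sum_union_inter]
  have h2 : ∑ a ∈ m.divisors.filter (fun a => P (f a * a) (m / a)),
      (1 / 2 : ℝ) ^ a.primeFactors.card ≤
      ∑ a ∈ m.divisors.filter (fun a => P a (m / a)) ∪
        m.divisors.filter (fun a => f a = c ∧ P (f a * a) (m / a)),
      (1 / 2 : ℝ) ^ a.primeFactors.card := by
    refine Finset.sum_le_sum_of_subset_of_nonneg ?_ fun _ _ _ => by positivity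
    intro a ha
    rw [Finset.mem_filter] at ha
    rw [Finset.mem_union, Finset.mem_filter, Finset.mem_filter]
    rcases hf a with h | h
    · exact Or.inr ⟨ha.1, h, ha.2⟩
    · left
      refine ⟨ha.1, ?_⟩
      have := ha.2
      rwa [h, one_mul] at this
  refine h2.trans (le_add_of_nonneg_right (Finset.sum_nonneg fun _ _ => by positivity))

theorem fv_or (a : ℕ) : fv a = 5 ∨ fv a = 1 := by unfold fv; split_ifs <;> simp

theorem th_or (a : ℕ) : th a = 3 ∨ th a = 1 := by unfold th; split_ifs <;> simp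

theorem GB_le {m : ℕ} (hm : m ≠ 0) (h5 : ¬ 5 ∣ m) : GB m ≤ G m + 2 * G (5 * m) :=
  split_le hm Nat.prime_five h5 fv fv_or
    (fun a b => ∀ q ∈ b.primeFactors, jacobiSym (a : ℤ) q = 1)

theorem GB'_le {m : ℕ} (hm : m ≠ 0) (h3 : ¬ 3 ∣ m) : GB' m ≤ G' m + 2 * G' (3 * m) :=
  split_le hm Nat.prime_three h3 th th_or
    (fun a b => ∀ q ∈ b.primeFactors, jacobiSym (q : ℤ) a = 1)

/-- sums over multiples -/
theorem mult_sum {C : ℝ} (hG : ∀ Y : ℕ, 2 ≤ Y →
    ∑ m ∈ (Icc 1 Y).filter (fun m => Odd m ∧ Squarefree m), (G m + G' m) / (m : ℝ) ≤ C * log Y)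
    {r c : ℕ} (hc : c.Prime) (hc2 : c ≠ 2) (hr : r % 2 = 1)
    (hcr : ∀ m, m % 60 = r → ¬ c ∣ m) {Y : ℕ} (hY : 2 ≤ Y) :
    ∑ m ∈ (Icc 1 Y).filter (fun m => Squarefree m ∧ m % 60 = r),
      (G (c * m) + G' (c * m)) / (m : ℝ) ≤ c * (C * log ((c * Y : ℕ) : ℝ)) := by
  have hc0 : (0 : ℝ) < c := by exact_mod_cast hc.pos
  have h1 := hG (c * Y) (le_trans hY (Nat.le_mul_of_pos_left Y hc.pos))
  refine le_trans ?_ (mul_le_mul_of_nonneg_left h1 hc0.le)
  rw [Finset.mul_sum]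
  have h2 : ∑ m ∈ (Icc 1 Y).filter (fun m => Squarefree m ∧ m % 60 = r),
      (G (c * m) + G' (c * m)) / (m : ℝ) =
      ∑ n ∈ ((Icc 1 Y).filter (fun m => Squarefree m ∧ m % 60 = r)).image (fun m => c * m),
        (c : ℝ) * ((G n + G' n) / (n : ℝ)) := by
    rw [Finset.sum_image]
    · refine Finset.sum_congr rfl fun m hm => ?_
      rw [Finset.mem_filter, Finset.mem_Icc] at hm
      have : (m : ℝ) ≠ 0 := by exact_mod_cast (by omega : m ≠ 0)
      push_cast
      field_simp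
    · intro x _ y _ h
      exact Nat.eq_of_mul_eq_mul_left hc.pos h
  rw [h2]
  refine Finset.sum_le_sum_of_subset_of_nonneg ?_ fun n _ _ => ?_
  · intro n hn
    rw [Finset.mem_image] at hn
    obtain ⟨m, hm, rfl⟩ := hn
    rw [Finset.mem_filter, Finset.mem_Icc] at hm ⊢
    obtain ⟨⟨h3, h4⟩, h5, h6⟩ := hm
    refine ⟨⟨Nat.mul_pos hc.pos h3, Nat.mul_le_mul_left c h4⟩, ?_, ?_⟩
    · rw [Nat.odd_mul]
      exact ⟨hc.odd_of_ne_two hc2, Nat.odd_iff.2 (by omega)⟩
    · rw [Nat.squarefree_mul ((Nat.Prime.coprime_iff_not_dvd hc).2 (hcr m h6))]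
      exact ⟨hc.squarefree, h5⟩
  · exact mul_nonneg hc0.le (div_nonneg (add_nonneg (G_nonneg _) (G'_nonneg _))
      (Nat.cast_nonneg _))

theorem gavgA {r : ℕ} (hr : r % 2 = 1) : ∃ C : ℝ, 0 < C ∧ ∀ Y : ℕ, 2 ≤ Y →
    ∑ m ∈ (Icc 1 Y).filter (fun m => Squarefree m ∧ m % 60 = r), (G m + G' m) / (m : ℝ) ≤
      C * Real.log Y := by
  obtain ⟨C, hC, hG⟩ := gAvg
  refine ⟨C, hC, fun Y hY => ?_⟩
  refine le_trans (Finset.sum_le_sum_of_subset_of_nonneg ?_ fun n _ _ => ?_) (hG Y hY)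
  · intro m hm
    rw [Finset.mem_filter] at hm ⊢
    exact ⟨hm.1, Nat.odd_iff.2 (by omega), hm.2.1⟩
  · exact div_nonneg (add_nonneg (G_nonneg _) (G'_nonneg _)) (Nat.cast_nonneg _)

theorem gavgB {r : ℕ} (hr : r % 2 = 1) (hr3 : r % 3 = 1) (hr5 : r % 5 = 1 ∨ r % 5 = 4)  :
    ∃ C : ℝ, 0 < C ∧ ∀ Y : ℕ, 2 ≤ Y →
    ∑ m ∈ (Icc 1 Y).filter (fun m => Squarefree m ∧ m % 60 = r), (GB m + GB' m) / (m : ℝ) ≤
      C * Real.log Y := by
  obtain ⟨C, hC, hG⟩ := gAvg
  refine ⟨59 * C, by positivity, fun Y hY => ?_⟩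
  have hY' : (2 : ℝ) ≤ Y := by exact_mod_cast hY
  have hl2 : 0 < Real.log 2 := Real.log_pos (by norm_num)
  have hlY : Real.log 2 ≤ Real.log Y := Real.log_le_log (by norm_num) hY'
  have hl5 : Real.log 5 ≤ 3 * Real.log 2 := by
    have : Real.log 5 ≤ Real.log (2 ^ 3) := Real.log_le_log (by norm_num) (by norm_num)
    rwa [Real.log_pow] at this
  have hl3 : Real.log 3 ≤ 2 * Real.log 2 := by
    have : Real.log 3 ≤ Real.log (2 ^ 2) := Real.log_le_log (by norm_num) (by norm_num)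
    rwa [Real.log_pow] at this
  have hY0 : (Y : ℝ) ≠ 0 := by positivity
  have hA : ∑ m ∈ (Icc 1 Y).filter (fun m => Squarefree m ∧ m % 60 = r),
      (G m + G' m) / (m : ℝ) ≤ C * Real.log Y := by
    refine le_trans (Finset.sum_le_sum_of_subset_of_nonneg ?_ fun n _ _ => ?_) (hG Y hY)
    · intro m hm
      rw [Finset.mem_filter] at hm ⊢
      exact ⟨hm.1, Nat.odd_iff.2 (by omega), hm.2.1⟩
    · exact div_nonneg (add_nonneg (G_nonneg _) (G'_nonneg _)) (Nat.cast_nonneg _)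
  have h5 := mult_sum hG Nat.prime_five (by norm_num) hr (fun m hm h => by omega) hY
  have h3 := mult_sum hG Nat.prime_three (by norm_num) hr (fun m hm h => by omega) hY
  have hL5 : Real.log ((5 * Y : ℕ) : ℝ) ≤ 4 * Real.log Y := by
    push_cast
    rw [Real.log_mul (by norm_num) hY0]
    linarith
  have hL3 : Real.log ((3 * Y : ℕ) : ℝ) ≤ 3 * Real.log Y := by
    push_cast
    rw [Real.log_mul (by norm_num) hY0]
    linarith
  have hpt : ∀ m ∈ (Icc 1 Y).filter (fun m => Squarefree m ∧ m % 60 = r),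
      (GB m + GB' m) / (m : ℝ) ≤ (G m + G' m) / (m : ℝ) +
        (2 * ((G (5 * m) + G' (5 * m)) / (m : ℝ)) + 2 * ((G (3 * m) + G' (3 * m)) / (m : ℝ))) := by
    intro m hm
    rw [Finset.mem_filter, Finset.mem_Icc] at hm
    have hm0 : (0 : ℝ) < m := by exact_mod_cast (by omega : 0 < m)
    have e1 := GB_le (m := m) (by omega) (by omega)
    have e2 := GB'_le (m := m) (by omega) (by omega)
    have e3 := G'_nonneg (5 * m)
    have e4 := G_nonneg (3 * m)
    have e5 : (G m + G' m) / (m : ℝ) +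
        (2 * ((G (5 * m) + G' (5 * m)) / (m : ℝ)) + 2 * ((G (3 * m) + G' (3 * m)) / (m : ℝ))) =
        ((G m + G' m) + 2 * (G (5 * m) + G' (5 * m)) + 2 * (G (3 * m) + G' (3 * m))) / (m : ℝ) := by
      ring
    rw [e5]
    exact div_le_div_of_nonneg_right (by linarith) hm0.le
  refine (Finset.sum_le_sum hpt).trans ?_
  rw [Finset.sum_add_distrib, Finset.sum_add_distrib, ← Finset.mul_sum, ← Finset.mul_sum]
  have k5 := mul_le_mul_of_nonneg_left hL5 hC.le
  have k3 := mul_le_mul_of_nonneg_left hL3 hC.le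
  push_cast at h5 h3 k5 k3 ⊢
  linarith

section
variable {k m : ℕ} {j : Fin k → ℕ}

open Classical in
theorem count_RB (hk : 0 < k) {a : ℕ} (hm : Squarefree m) (h5m : ¬ 5 ∣ m) (ham : a ∣ m)
    (ha1 : a ≠ 1) (hj : ∀ l, m < 2 ^ j l) :
    (((Fintype.piFinset fun l => PB (j l)).filter (fun p => RB m p a)).card : ℝ) ≤
      (if ∀ q ∈ (m / a).primeFactors, jacobiSym ((fv a * a : ℕ) : ℤ) q = 1 then
        (1 / 2 : ℝ) ^ (k - 1) * (1 / 2 : ℝ) ^ a.primeFactors.card *
        (∏ l, ((PB (j l)).card : ℝ)) else 0) +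
      2 * ∑ l, (∏ l' ∈ univ.erase l, ((PB (j l')).card : ℝ)) *
        ∑ e ∈ a.divisors.erase 1, |SP (j l) e| := by
  have hE0 : 0 ≤ ∑ l, (∏ l' ∈ univ.erase l, ((PB (j l')).card : ℝ)) *
        ∑ e ∈ a.divisors.erase 1, |SP (j l) e| :=
    Finset.sum_nonneg fun l _ => mul_nonneg (Finset.prod_nonneg fun _ _ => by positivity)
      (Finset.sum_nonneg fun _ _ => abs_nonneg _)
  by_cases h : ∀ q ∈ (m / a).primeFactors, jacobiSym ((fv a * a : ℕ) : ℤ) q = 1
  · rw [if_pos h]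
    refine le_trans ?_ (count_bad hk hm.ne_zero ham (hm.squarefree_of_dvd ham) ha1 hj
      (fun q => jacobiSym (m / a : ℕ) q * jacobiSym (fv a : ℤ) q) fun q hq => sign_mul
        (J_sign_cop (cop_of_dvd hm ham (Nat.dvd_of_mem_primeFactors hq)))
        (fv_sign (Nat.prime_of_mem_primeFactors hq) fun h5 => h5m
          (h5 ▸ (Nat.dvd_of_mem_primeFactors hq).trans ham)))
    refine Nat.cast_le.2 (Finset.card_le_card fun p hp => ?_)
    obtain ⟨hp1, hp2, hp3, hp4⟩ := Finset.mem_filter.1 hp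
    refine Finset.mem_filter.2 ⟨hp1, hp2, fun q hq => ?_⟩
    have := hp4 q hq
    rwa [Nat.cast_mul, jacobiSym.mul_left, mul_assoc] at this
  · rw [if_neg h, zero_add]
    have : ((Fintype.piFinset fun l => PB (j l)).filter (fun p => RB m p a)) = ∅ :=
      Finset.filter_eq_empty_iff.2 fun p _ hR => h hR.2.1
    rw [this]
    simp only [Finset.card_empty, Nat.cast_zero]
    linarith

open Classical in
theorem count_LB (hk : 0 < k) {a : ℕ} (hm : Squarefree m) (h3m : ¬ 3 ∣ m) (ham : a ∣ m)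
    (ha1 : a ≠ 1) (hj : ∀ l, m < 2 ^ j l) :
    (((Fintype.piFinset fun l => PB (j l)).filter (fun p => LB m p a)).card : ℝ) ≤
      (if ∀ q ∈ (m / a).primeFactors, jacobiSym (q : ℤ) (th a * a) = 1 then
        (1 / 2 : ℝ) ^ (k - 1) * (1 / 2 : ℝ) ^ a.primeFactors.card *
        (∏ l, ((PB (j l)).card : ℝ)) else 0) +
      2 * ∑ l, (∏ l' ∈ univ.erase l, ((PB (j l')).card : ℝ)) *
        ∑ e ∈ a.divisors.erase 1, |SP (j l) e| := by
  have hE0 : 0 ≤ ∑ l, (∏ l' ∈ univ.erase l, ((PB (j l')).card : ℝ)) *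
        ∑ e ∈ a.divisors.erase 1, |SP (j l) e| :=
    Finset.sum_nonneg fun l _ => mul_nonneg (Finset.prod_nonneg fun _ _ => by positivity)
      (Finset.sum_nonneg fun _ _ => abs_nonneg _)
  by_cases h : ∀ q ∈ (m / a).primeFactors, jacobiSym (q : ℤ) (th a * a) = 1
  · rw [if_pos h]
    have hasq := hm.squarefree_of_dvd ham
    refine le_trans ?_ (count_bad hk hm.ne_zero ham hasq ha1 hj
      (fun q => (jacobiSym (m / q : ℕ) q * jacobiSym q (a / q)) * jacobiSym (q : ℤ) (th a))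
        fun q hq => sign_mul (sign_mul
        (J_sign_cop (cop_div hm ((Nat.dvd_of_mem_primeFactors hq).trans ham)))
        (J_sign_cop (cop_div hasq (Nat.dvd_of_mem_primeFactors hq)).symm))
        (th_sign (Nat.prime_of_mem_primeFactors hq) fun h3 => h3m
          (h3 ▸ (Nat.dvd_of_mem_primeFactors hq).trans ham)))
    refine Nat.cast_le.2 (Finset.card_le_card fun p hp => ?_)
    obtain ⟨hp1, hp2, hp3, hp4⟩ := Finset.mem_filter.1 hp
    refine Finset.mem_filter.2 ⟨hp1, hp2, fun q hq => ?_⟩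
    have := hp4 q hq
    rw [Nat.cast_mul, jacobiSym.mul_left] at this
    rw [← this]
    ring
  · rw [if_neg h, zero_add]
    have : ((Fintype.piFinset fun l => PB (j l)).filter (fun p => LB m p a)) = ∅ :=
      Finset.filter_eq_empty_iff.2 fun p _ hR => h hR.2.1
    rw [this]
    simp only [Finset.card_empty, Nat.cast_zero]
    linarith

open Classical in
theorem union_bd : (((Fintype.piFinset fun l => PB (j l)).filter
      (fun p => ¬ GoodB k m p)).card : ℝ) ≤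
      ∑ a ∈ m.divisors.erase 1,
        ((((Fintype.piFinset fun l => PB (j l)).filter (fun p => RB m p a)).card : ℝ) +
        (((Fintype.piFinset fun l => PB (j l)).filter (fun p => LB m p a)).card : ℝ)) := by
  have hsub : (Fintype.piFinset fun l => PB (j l)).filter (fun p => ¬ GoodB k m p) ⊆
      (m.divisors.erase 1).biUnion fun a =>
        ((Fintype.piFinset fun l => PB (j l)).filter (fun p => RB m p a)) ∪
        ((Fintype.piFinset fun l => PB (j l)).filter (fun p => LB m p a)) := by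
    intro p hp
    obtain ⟨hp1, hp2⟩ := Finset.mem_filter.1 hp
    unfold GoodB at hp2
    push Not at hp2
    obtain ⟨a, ha, ha1, hab⟩ := hp2
    refine Finset.mem_biUnion.2 ⟨a, Finset.mem_erase.2 ⟨ha1, ha⟩, ?_⟩
    rw [Finset.mem_union, Finset.mem_filter, Finset.mem_filter]
    by_cases hR : RB m p a
    · exact Or.inl ⟨hp1, hR⟩
    · exact Or.inr ⟨hp1, hab hR⟩
  have h2 := (Finset.card_le_card hsub).trans Finset.card_biUnion_le
  refine (Nat.cast_le.2 h2).trans ?_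
  rw [Nat.cast_sum]
  refine Finset.sum_le_sum fun a _ => ?_
  rw [← Nat.cast_add]
  exact Nat.cast_le.2 (Finset.card_union_le _ _)

/-- the error terms -/
noncomputable def Er (j : Fin k → ℕ) (a : ℕ) : ℝ :=
  ∑ l, (∏ l' ∈ univ.erase l, ((PB (j l')).card : ℝ)) * ∑ e ∈ a.divisors.erase 1, |SP (j l) e|

theorem Er_nonneg (a : ℕ) : 0 ≤ Er j a :=
  Finset.sum_nonneg fun l _ => mul_nonneg (Finset.prod_nonneg fun _ _ => Nat.cast_nonneg _)
    (Finset.sum_nonneg fun _ _ => abs_nonneg _)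

theorem sum_Er : ∑ a ∈ m.divisors.erase 1, Er j a ≤
    ∑ l, (∏ l' ∈ univ.erase l, ((PB (j l')).card : ℝ)) *
      ∑ a ∈ m.divisors, ∑ e ∈ a.divisors.erase 1, |SP (j l) e| := by
  calc ∑ a ∈ m.divisors.erase 1, Er j a ≤ ∑ a ∈ m.divisors, Er j a :=
        Finset.sum_le_sum_of_subset_of_nonneg (Finset.erase_subset _ _) fun a _ _ => Er_nonneg a
    _ = _ := by
        unfold Er
        rw [Finset.sum_comm]
        refine Finset.sum_congr rfl fun l _ => ?_
        rw [Finset.mul_sum]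

theorem sum_ind (N w : ℝ) (hN : 0 ≤ N) (hw : 0 ≤ w) (c : ℕ → Prop) [DecidablePred c] :
    ∑ a ∈ m.divisors.erase 1, (if c a then w * (1 / 2 : ℝ) ^ a.primeFactors.card * N else 0) ≤
      w * N * (∑ a ∈ m.divisors.filter c, (1 / 2 : ℝ) ^ a.primeFactors.card) := by
  rw [Finset.sum_filter, Finset.mul_sum]
  refine (Finset.sum_le_sum_of_subset_of_nonneg (Finset.erase_subset _ _)
    fun a _ _ => ?_).trans (Finset.sum_le_sum fun a _ => ?_)
  · split_ifs
    · positivity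
    · exact le_refl _
  · split_ifs
    · exact le_of_eq (by ring)
    · simp

open Classical in
theorem sum_RL (hk : 0 < k) (hm : Squarefree m) (h3m : ¬ 3 ∣ m) (h5m : ¬ 5 ∣ m)
    (hj : ∀ l, m < 2 ^ j l) :
    ∑ a ∈ m.divisors.erase 1,
        ((((Fintype.piFinset fun l => PB (j l)).filter (fun p => RB m p a)).card : ℝ) +
        (((Fintype.piFinset fun l => PB (j l)).filter (fun p => LB m p a)).card : ℝ)) ≤
      ∑ a ∈ m.divisors.erase 1,
        (((if ∀ q ∈ (m / a).primeFactors, jacobiSym ((fv a * a : ℕ) : ℤ) q = 1 then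
          (1 / 2 : ℝ) ^ (k - 1) * (1 / 2 : ℝ) ^ a.primeFactors.card *
            (∏ l, ((PB (j l)).card : ℝ)) else 0) + 2 * Er j a) +
        ((if ∀ q ∈ (m / a).primeFactors, jacobiSym (q : ℤ) (th a * a) = 1 then
          (1 / 2 : ℝ) ^ (k - 1) * (1 / 2 : ℝ) ^ a.primeFactors.card *
            (∏ l, ((PB (j l)).card : ℝ)) else 0) + 2 * Er j a)) := by
  refine Finset.sum_le_sum fun a ha => ?_
  obtain ⟨ha1, ha⟩ := Finset.mem_erase.1 ha
  exact add_le_add (count_RB hk hm h5m (Nat.dvd_of_mem_divisors ha) ha1 hj)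
    (count_LB hk hm h3m (Nat.dvd_of_mem_divisors ha) ha1 hj)

theorem fin_arith {X A B N w g g' e E : ℝ} (h : X ≤ (A + 2 * e) + (B + 2 * e))
    (hA : A ≤ w * N * g) (hB : B ≤ w * N * g') (he : e ≤ E) :
    X ≤ N * (w * (g + g')) + 4 * E := by
  have : N * (w * (g + g')) = w * N * g + w * N * g' := by ring
  linarith

open Classical in
theorem firstB (hk : 0 < k) (hm : Squarefree m) (h3m : ¬ 3 ∣ m) (h5m : ¬ 5 ∣ m)
    (hj : ∀ l, m < 2 ^ j l) :
    (((Fintype.piFinset fun l => PB (j l)).filter (fun p => ¬ GoodB k m p)).card : ℝ) ≤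
      (∏ l, ((PB (j l)).card : ℝ)) * ((1 / 2 : ℝ) ^ (k - 1) * (GB m + GB' m)) +
        4 * ∑ l, (∏ l' ∈ univ.erase l, ((PB (j l')).card : ℝ)) *
          ∑ a ∈ m.divisors, ∑ e ∈ a.divisors.erase 1, |SP (j l) e| := by
  have hN0 : 0 ≤ ∏ l, ((PB (j l)).card : ℝ) := Finset.prod_nonneg fun _ _ => Nat.cast_nonneg _
  have hw0 : (0 : ℝ) ≤ (1 / 2 : ℝ) ^ (k - 1) := by positivity
  have h3 := sum_ind (m := m) _ _ hN0 hw0
    (fun a => ∀ q ∈ (m / a).primeFactors, jacobiSym ((fv a * a : ℕ) : ℤ) q = 1)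
  have h4 := sum_ind (m := m) _ _ hN0 hw0
    (fun a => ∀ q ∈ (m / a).primeFactors, jacobiSym (q : ℤ) (th a * a) = 1)
  have h5 := sum_Er (m := m) (j := j)
  have h2 := union_bd.trans (sum_RL hk hm h3m h5m hj)
  rw [Finset.sum_add_distrib, Finset.sum_add_distrib, Finset.sum_add_distrib, ← Finset.mul_sum]
    at h2
  have h6 : GB m = ∑ a ∈ m.divisors.filter
      (fun a => ∀ q ∈ (m / a).primeFactors, jacobiSym ((fv a * a : ℕ) : ℤ) q = 1),
      (1 / 2 : ℝ) ^ a.primeFactors.card := by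
    unfold GB; congr
  have h7 : GB' m = ∑ a ∈ m.divisors.filter
      (fun a => ∀ q ∈ (m / a).primeFactors, jacobiSym (q : ℤ) (th a * a) = 1),
      (1 / 2 : ℝ) ^ a.primeFactors.card := by
    unfold GB'; congr
  rw [← h6] at h3
  rw [← h7] at h4
  exact fin_arith h2 h3 h4 h5

end

theorem goodB_congr {k m : ℕ} {p p' : Fin k → ℕ} (hm : Squarefree m) (h : SamePat m p p')
    (hg : GoodB k m p) : GoodB k m p' := by
  intro a ha ha1
  have ham := Nat.dvd_of_mem_divisors ha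
  obtain ⟨h1, h2⟩ := hg a ha ha1
  have hmono : ∀ q ∈ a.primeFactors, q ∈ m.primeFactors := fun q hq =>
    Nat.primeFactors_mono ham hm.ne_zero hq
  constructor
  · rintro ⟨b1, b2, b3⟩
    apply h1
    refine ⟨fun l => by rw [J_dvd hm h ham]; exact b1 l, b2, fun q hq => ?_⟩
    rw [J_prodp h _ q (hmono q hq)]
    exact b3 q hq
  · rintro ⟨b1, b2, b3⟩
    apply h2
    refine ⟨fun l => by rw [J_dvd hm h ham]; exact b1 l, b2, fun q hq => ?_⟩
    rw [J_prodp h _ q (hmono q hq)]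
    exact b3 q hq

end Vale.Agent.P017.H735D
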