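import Vale.Agent.P017.H12.Flip
import Vale.Agent.P017.H735.Fam2

/-!
# Flipping the mutual symbols, `3` inert and `5` split
-/

namespace Vale.Agent.P017.H735D

open Finset Matrix Vale.Agent.P017.H262 Vale.Agent.P017.H12
open Vale.Agent.P017.H735 (J3_one J5_one J5_neg Crit LocN)

/-- the factor at five -/
def fv (a : ℕ) : ℕ := if a % 3 = 2 then 5 else 1

/-- the factor at three -/
def th (a : ℕ) : ℕ := if a % 5 = 2 ∨ a % 5 = 3 then 3 else 1

/-- a nontrivial vector of the right kernel, supported on `m` (divisor `a`) -/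
def RB {k : ℕ} (m : ℕ) (p : Fin k → ℕ) (a : ℕ) : Prop :=
  (∀ l, jacobiSym (p l) a = 1) ∧ (∀ q ∈ (m / a).primeFactors, jacobiSym ((fv a * a : ℕ) : ℤ) q = 1) ∧
    ∀ q ∈ a.primeFactors, jacobiSym ((∏ l, p l) * (m / a) : ℕ) q * jacobiSym (fv a : ℤ) q = 1

/-- a nontrivial vector of the left kernel, supported on `m` (divisor `a`) -/
def LB {k : ℕ} (m : ℕ) (p : Fin k → ℕ) (a : ℕ) : Prop :=
  (∀ l, jacobiSym (p l) a = 1) ∧ (∀ q ∈ (m / a).primeFactors, jacobiSym q (th a * a) = 1) ∧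
    ∀ q ∈ a.primeFactors,
      jacobiSym ((∏ l, p l) * (m / q) : ℕ) q * jacobiSym q (a / q) * jacobiSym q (th a) = 1

/-- no bad vector -/
def GoodB (k m : ℕ) (p : Fin k → ℕ) : Prop :=
  ∀ a ∈ m.divisors, a ≠ 1 → ¬ RB m p a ∧ ¬ LB m p a

section
variable {k m : ℕ}

theorem ne3 (h3 : m % 3 = 1) (q : m.primeFactors) : (q : ℕ) ≠ 3 := by
  intro h
  have := Nat.dvd_of_mem_primeFactors q.2
  rw [h] at this
  omega

theorem ne5 (h5 : m % 5 = 1 ∨ m % 5 = 4) (q : m.primeFactors) : (q : ℕ) ≠ 5 := by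
  intro h
  have := Nat.dvd_of_mem_primeFactors q.2
  rw [h] at this
  omega

/-- exponent at three -/
def a3 (q : ℕ) : ZMod 2 := chi (jacobiSym (q : ℤ) 3)

/-- exponent at five -/
def f5 (q : ℕ) : ZMod 2 := chi (jacobiSym ((5 : ℕ) : ℤ) q)

theorem J3_sign (h3 : m % 3 = 1) (q : m.primeFactors) :
    jacobiSym ((q : ℕ) : ℤ) 3 = 1 ∨ jacobiSym ((q : ℕ) : ℤ) 3 = -1 :=
  J_sign (Nat.prime_of_mem_primeFactors q.2) Nat.prime_three (ne3 h3 q)

theorem J5_sign (h5 : m % 5 = 1 ∨ m % 5 = 4) (q : m.primeFactors) :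
    jacobiSym ((5 : ℕ) : ℤ) (q : ℕ) = 1 ∨ jacobiSym ((5 : ℕ) : ℤ) (q : ℕ) = -1 :=
  J_sign Nat.prime_five (Nat.prime_of_mem_primeFactors q.2) (ne5 h5 q).symm

theorem sum_a3 (hm : Squarefree m) (h3 : m % 3 = 1) : ∑ q : m.primeFactors, a3 q = 0 := by
  unfold a3
  rw [← chi_prod _ _ fun q _ => J3_sign h3 q, ← J_prod_left, prod_pf hm, J3_one h3]
  rfl

theorem sum_a3_mul (h3 : m % 3 = 1) (v : m.primeFactors → ZMod 2) :
    ∑ q : m.primeFactors, a3 q * v q = chi (jacobiSym (dv m v : ℤ) 3) := by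
  unfold a3 dv
  rw [sum_mul_eq, ← chi_prod _ _ fun q _ => J3_sign h3 q, ← J_prod_left]

theorem sum_f5_mul (h5 : m % 5 = 1 ∨ m % 5 = 4) (v : m.primeFactors → ZMod 2) :
    ∑ q : m.primeFactors, v q * f5 q = chi (jacobiSym ((5 : ℕ) : ℤ) (dv m v)) := by
  unfold f5 dv
  rw [sum_mul_eq2, ← chi_prod _ _ fun q _ => J5_sign h5 q,
    J_prod_right _ _ _ fun i _ => (Nat.prime_of_mem_primeFactors i.2).ne_zero]

theorem chi_fv {a q : ℕ} (h : ¬ 3 ∣ a) :
    f5 q * chi (jacobiSym (a : ℤ) 3) = chi (jacobiSym (fv a : ℤ) q) := by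
  unfold f5
  have h12 : a % 3 = 1 ∨ a % 3 = 2 := by omega
  rcases h12 with h1 | h2
  · rw [J3_one h1]
    unfold fv
    rw [if_neg (by omega)]
    simp [chi_one]
  · have h4 : jacobiSym (a : ℤ) 3 = -1 := by
      rw [jacobiSym.mod_left]
      have h5 : (a : ℤ) % ((3 : ℕ) : ℤ) = 2 := by push_cast; omega
      rw [h5]; norm_num
    rw [h4]
    unfold fv
    rw [if_pos h2]
    have : chi (-1) = 1 := by decide
    rw [this, mul_one]

theorem chi_th {a q : ℕ} (hodd : Odd a) (h : ¬ 5 ∣ a) :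
    a3 q * chi (jacobiSym ((5 : ℕ) : ℤ) a) = chi (jacobiSym (q : ℤ) (th a)) := by
  unfold a3
  have h12 : (a % 5 = 1 ∨ a % 5 = 4) ∨ (a % 5 = 2 ∨ a % 5 = 3) := by omega
  rcases h12 with h1 | h2
  · have h4 : jacobiSym ((5 : ℕ) : ℤ) a = 1 := by
      have := J5_one hodd h1
      exact_mod_cast this
    rw [h4]
    unfold th
    rw [if_neg (by omega)]
    simp [chi_one]
  · have h4 : jacobiSym ((5 : ℕ) : ℤ) a = -1 := by
      have := J5_neg hodd h2
      exact_mod_cast this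
    rw [h4]
    unfold th
    rw [if_pos h2]
    have : chi (-1) = 1 := by decide
    rw [this, mul_one]

/-- the symbols relative to `m`, corrected at three and five -/
def SB {k : ℕ} (m : ℕ) (p : Fin k → ℕ) :
    (m.primeFactors ⊕ Fin k) → (m.primeFactors ⊕ Fin k) → ZMod 2
  | Sum.inl q, Sum.inl q' => chi (jacobiSym (q' : ℕ) (q : ℕ)) + f5 q * a3 q'
  | Sum.inl q, Sum.inr l => chi (jacobiSym (p l) (q : ℕ))
  | Sum.inr l, Sum.inl q => chi (jacobiSym (p l) (q : ℕ))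
  | Sum.inr _, Sum.inr _ => 0

theorem row_inl (hm : Squarefree m) (h3 : m % 3 = 1) (p : Fin k → ℕ)
    (β : Fin k → Fin k → ZMod 2) (x : m.primeFactors ⊕ Fin k → ZMod 2) (q : m.primeFactors) :
    (R (S (SB m p) β) *ᵥ x) (Sum.inl q) = (R (S (S0 m p) β) *ᵥ x) (Sum.inl q) +
      f5 q * ∑ q' : m.primeFactors, a3 q' * x (Sum.inl q') := by
  rw [R_mulVec, R_mulVec]
  simp only [Fintype.sum_sum_type, S, SB, S0]
  have h1 : ∑ q' : m.primeFactors, (chi (jacobiSym (q' : ℕ) (q : ℕ)) + f5 q * a3 q') *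
      (x (Sum.inl q') + x (Sum.inl q)) =
      ∑ q' : m.primeFactors, chi (jacobiSym (q' : ℕ) (q : ℕ)) * (x (Sum.inl q') + x (Sum.inl q)) +
      (f5 q * ∑ q' : m.primeFactors, a3 q' * x (Sum.inl q') +
        f5 q * x (Sum.inl q) * ∑ q' : m.primeFactors, a3 q') := by
    rw [Finset.mul_sum, Finset.mul_sum, ← Finset.sum_add_distrib, ← Finset.sum_add_distrib]
    exact Finset.sum_congr rfl fun q' _ => by ring
  rw [h1, sum_a3 hm h3]
  ring

theorem row_inr (p : Fin k → ℕ)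
    (β : Fin k → Fin k → ZMod 2) (x : m.primeFactors ⊕ Fin k → ZMod 2) (l : Fin k) :
    (R (S (SB m p) β) *ᵥ x) (Sum.inr l) = (R (S (S0 m p) β) *ᵥ x) (Sum.inr l) := by
  rw [R_mulVec, R_mulVec]
  simp only [Fintype.sum_sum_type, S, SB, S0]

theorem col_inl (hm : Squarefree m) (h3 : m % 3 = 1) (p : Fin k → ℕ)
    (β : Fin k → Fin k → ZMod 2) (x : m.primeFactors ⊕ Fin k → ZMod 2) (q : m.primeFactors) :
    (x ᵥ* R (S (SB m p) β)) (Sum.inl q) = (x ᵥ* R (S (S0 m p) β)) (Sum.inl q) +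
      a3 q * ∑ q' : m.primeFactors, x (Sum.inl q') * f5 q' := by
  rw [vecMul_R, vecMul_R]
  simp only [Fintype.sum_sum_type, S, SB, S0]
  have h1 : ∑ q' : m.primeFactors, x (Sum.inl q') * (chi (jacobiSym (q : ℕ) (q' : ℕ)) +
      f5 q' * a3 q) = ∑ q' : m.primeFactors, x (Sum.inl q') * chi (jacobiSym (q : ℕ) (q' : ℕ)) +
      a3 q * ∑ q' : m.primeFactors, x (Sum.inl q') * f5 q' := by
    rw [Finset.mul_sum, ← Finset.sum_add_distrib]
    exact Finset.sum_congr rfl fun q' _ => by ring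
  have h2 : ∑ q' : m.primeFactors, (chi (jacobiSym (q' : ℕ) (q : ℕ)) + f5 q * a3 q') =
      ∑ q' : m.primeFactors, chi (jacobiSym (q' : ℕ) (q : ℕ)) := by
    rw [Finset.sum_add_distrib, ← Finset.mul_sum, sum_a3 hm h3, mul_zero, add_zero]
  rw [h1, h2]
  ring

theorem col_inr (p : Fin k → ℕ)
    (β : Fin k → Fin k → ZMod 2) (x : m.primeFactors ⊕ Fin k → ZMod 2) (l : Fin k) :
    (x ᵥ* R (S (SB m p) β)) (Sum.inr l) = (x ᵥ* R (S (S0 m p) β)) (Sum.inr l) := by
  rw [vecMul_R, vecMul_R]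
  simp only [Fintype.sum_sum_type, S, SB, S0]

theorem ndvd_dv {r : ℕ} (hm : Squarefree m) (hr : ¬ r ∣ m) (v : m.primeFactors → ZMod 2) :
    ¬ r ∣ dv m v := fun h => hr (h.trans (Dvd.intro _ (dv_mul_dc hm v)))

theorem odd_dv (hm : Squarefree m) (h4 : m % 4 = 3) (v : m.primeFactors → ZMod 2) :
    Odd (dv m v) := Odd.of_dvd_nat (odd_of_mod h4) (Dvd.intro _ (dv_mul_dc hm v))

theorem fv_sign {a q : ℕ} (hq : q.Prime) (hq5 : q ≠ 5) :
    jacobiSym (fv a : ℤ) q = 1 ∨ jacobiSym (fv a : ℤ) q = -1 := by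
  unfold fv
  split_ifs
  · exact J_sign Nat.prime_five hq hq5.symm
  · left; simp

theorem th_sign {a q : ℕ} (hq : q.Prime) (hq3 : q ≠ 3) :
    jacobiSym (q : ℤ) (th a) = 1 ∨ jacobiSym (q : ℤ) (th a) = -1 := by
  unfold th
  split_ifs
  · exact J_sign hq Nat.prime_three hq3
  · left; simp

/-- no vector of the right kernel is supported on `m` -/
theorem hRB {p : Fin k → ℕ} (hm : Squarefree m) (h3 : m % 3 = 1) (h5 : m % 5 = 1 ∨ m % 5 = 4)
    (hp : Adm m p) (hg : GoodB k m p)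
    (β : Fin k → Fin k → ZMod 2) (x : m.primeFactors ⊕ Fin k → ZMod 2)
    (hx : R (S (SB m p) β) *ᵥ x = 0) (h0 : ∀ l, x (Sum.inr l) = 0) : x = 0 := by
  obtain ⟨v, hv⟩ : ∃ v : m.primeFactors → ZMod 2, ∀ q, x (Sum.inl q) = v q :=
    ⟨_, fun _ => rfl⟩
  have hA : ∑ q' : m.primeFactors, a3 q' * x (Sum.inl q') = chi (jacobiSym (dv m v : ℤ) 3) := by
    simp only [hv]
    exact sum_a3_mul h3 v
  have hnd3 : ¬ 3 ∣ dv m v := ndvd_dv hm (by omega) v
  have hv0 : v = 0 := by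
    by_contra hne
    have hd : dv m v ∈ m.divisors :=
      Nat.mem_divisors.2 ⟨Dvd.intro _ (dv_mul_dc hm v), hm.ne_zero⟩
    refine (hg (dv m v) hd fun h => hne (dv_eq_one h)).1 ⟨?_, ?_, ?_⟩
    · intro l
      have h1 := congrFun hx (Sum.inr l)
      rw [row_inr, R_mulVec] at h1
      simp only [Fintype.sum_sum_type, h0, S, S0, add_zero, mul_zero, Finset.sum_const_zero,
        Pi.zero_apply, hv] at h1
      rw [sum_mul_eq, ← chi_prod _ _ fun q _ => J_large hp l q] at h1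
      unfold dv
      rw [J_prod_right _ _ _ fun i _ => (Nat.prime_of_mem_primeFactors i.2).ne_zero]
      exact chi_eq_zero.1 h1
    · intro q hq
      rw [div_dv hm, mem_pf_dc] at hq
      obtain ⟨hq, hvq⟩ := hq
      have hvq0 : v ⟨q, hq⟩ = 0 := (z2_cases _).resolve_right hvq
      have h1 := congrFun hx (Sum.inl ⟨q, hq⟩)
      rw [row_inl hm h3, hA, chi_fv hnd3, R_mulVec] at h1
      simp only [Fintype.sum_sum_type, h0, S, S0, hv, hvq0, add_zero, mul_zero,
        Finset.sum_const_zero, Pi.zero_apply] at h1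
      have hs : ∀ q' ∈ univ.filter (fun q : m.primeFactors => v q = 1),
          jacobiSym ((q' : ℕ) : ℤ) q = 1 ∨ jacobiSym ((q' : ℕ) : ℤ) q = -1 := by
        intro q' hq'
        refine J_small (q' := ⟨q, hq⟩) ?_
        rintro rfl
        exact hvq (Finset.mem_filter.1 hq').2
      rw [sum_mul_eq, ← chi_prod _ _ hs, ← chi_mul (sign_prod _ _ hs)
        (fv_sign (Nat.prime_of_mem_primeFactors hq) (ne5 h5 ⟨q, hq⟩))] at h1
      rw [Nat.cast_mul, jacobiSym.mul_left, mul_comm]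
      have h2 := chi_eq_zero.1 h1
      rw [← J_prod_left] at h2
      exact h2
    · intro q hq
      obtain ⟨hq, hvq⟩ := mem_pf_dv.1 hq
      have h1 := congrFun hx (Sum.inl ⟨q, hq⟩)
      rw [row_inl hm h3, hA, chi_fv hnd3, R_mulVec] at h1
      simp only [Fintype.sum_sum_type, h0, S, S0, hv, hvq, zero_add, mul_one, Pi.zero_apply] at h1
      have hs : ∀ q' ∈ univ.filter (fun q : m.primeFactors => ¬ v q = 1),
          jacobiSym ((q' : ℕ) : ℤ) q = 1 ∨ jacobiSym ((q' : ℕ) : ℤ) q = -1 := by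
        intro q' hq'
        refine J_small (q' := ⟨q, hq⟩) ?_
        rintro rfl
        exact (Finset.mem_filter.1 hq').2 hvq
      have hs2 : ∀ l ∈ (univ : Finset (Fin k)), jacobiSym (p l) q = 1 ∨ jacobiSym (p l) q = -1 :=
        fun l _ => J_large hp l ⟨q, hq⟩
      rw [sum_mul_eq', ← chi_prod _ _ hs, ← chi_prod _ _ hs2,
        ← chi_mul (sign_prod _ _ hs) (sign_prod _ _ hs2),
        ← chi_mul (sign_mul (sign_prod _ _ hs) (sign_prod _ _ hs2))
        (fv_sign (Nat.prime_of_mem_primeFactors hq) (ne5 h5 ⟨q, hq⟩))] at h1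
      have h2 := chi_eq_zero.1 h1
      rw [div_dv hm, Nat.cast_mul, jacobiSym.mul_left, J_prod_left, dc, J_prod_left]
      rw [← h2]; ring
  funext i
  rcases i with q | l
  · rw [hv, hv0]; rfl
  · exact h0 l

/-- no vector of the left kernel is supported on `m` -/
theorem hLB {p : Fin k → ℕ} (hm : Squarefree m) (h4 : m % 4 = 3) (h3 : m % 3 = 1)
    (h5 : m % 5 = 1 ∨ m % 5 = 4) (hp : Adm m p) (hg : GoodB k m p)
    (β : Fin k → Fin k → ZMod 2) (x : m.primeFactors ⊕ Fin k → ZMod 2)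
    (hx : x ᵥ* R (S (SB m p) β) = 0) (h0 : ∀ l, x (Sum.inr l) = 0) : x = 0 := by
  obtain ⟨v, hv⟩ : ∃ v : m.primeFactors → ZMod 2, ∀ q, x (Sum.inl q) = v q :=
    ⟨_, fun _ => rfl⟩
  have hF : ∑ q' : m.primeFactors, x (Sum.inl q') * f5 q' =
      chi (jacobiSym ((5 : ℕ) : ℤ) (dv m v)) := by
    simp only [hv]
    exact sum_f5_mul h5 v
  have hnd5 : ¬ 5 ∣ dv m v := ndvd_dv hm (by omega) v
  have hodd : Odd (dv m v) := odd_dv hm h4 v
  have hv0 : v = 0 := by
    by_contra hne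
    have hd : dv m v ∈ m.divisors :=
      Nat.mem_divisors.2 ⟨Dvd.intro _ (dv_mul_dc hm v), hm.ne_zero⟩
    refine (hg (dv m v) hd fun h => hne (dv_eq_one h)).2 ⟨?_, ?_, ?_⟩
    · intro l
      have h1 := congrFun hx (Sum.inr l)
      rw [col_inr, vecMul_R] at h1
      simp only [Fintype.sum_sum_type, h0, S, S0, add_zero, zero_mul, Finset.sum_const_zero,
        Pi.zero_apply, hv] at h1
      rw [sum_mul_eq2, ← chi_prod _ _ fun q _ => J_large hp l q] at h1
      unfold dv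
      rw [J_prod_right _ _ _ fun i _ => (Nat.prime_of_mem_primeFactors i.2).ne_zero]
      exact chi_eq_zero.1 h1
    · intro q hq
      rw [div_dv hm, mem_pf_dc] at hq
      obtain ⟨hq, hvq⟩ := hq
      have hvq0 : v ⟨q, hq⟩ = 0 := (z2_cases _).resolve_right hvq
      have h1 := congrFun hx (Sum.inl ⟨q, hq⟩)
      rw [col_inl hm h3, hF, chi_th hodd hnd5, vecMul_R] at h1
      simp only [Fintype.sum_sum_type, h0, S, S0, hv, hvq0, add_zero, zero_mul,
        Finset.sum_const_zero, Pi.zero_apply] at h1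
      have hs : ∀ q' ∈ univ.filter (fun q : m.primeFactors => v q = 1),
          jacobiSym (q : ℤ) (q' : ℕ) = 1 ∨ jacobiSym (q : ℤ) (q' : ℕ) = -1 := by
        intro q' hq'
        refine J_small (q := ⟨q, hq⟩) ?_
        rintro rfl
        exact hvq (Finset.mem_filter.1 hq').2
      rw [sum_mul_eq2, ← chi_prod _ _ hs, ← chi_mul (sign_prod _ _ hs)
        (th_sign (Nat.prime_of_mem_primeFactors hq) (ne3 h3 ⟨q, hq⟩))] at h1
      have h2 := chi_eq_zero.1 h1
      have hth0 : th (dv m v) ≠ 0 := by unfold th; split_ifs <;> norm_num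
      rw [jacobiSym.mul_right' _ hth0 (dv_ne_zero hm v)]
      unfold dv at h2 ⊢
      rw [J_prod_right _ _ _ fun i _ => (Nat.prime_of_mem_primeFactors i.2).ne_zero]
      rw [← h2]; ring
    · intro q hq
      obtain ⟨hq, hvq⟩ := mem_pf_dv.1 hq
      have h1 := congrFun hx (Sum.inl ⟨q, hq⟩)
      rw [col_inl hm h3, hF, chi_th hodd hnd5, vecMul_R] at h1
      simp only [Fintype.sum_sum_type, h0, S, S0, hv, hvq, add_zero, zero_mul,
        Finset.sum_const_zero, one_mul, Pi.zero_apply] at h1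
      rw [sum_mul_eq2] at h1
      have hmem : (⟨q, hq⟩ : m.primeFactors) ∈
          univ.filter (fun q : m.primeFactors => v q = 1) := by simpa using hvq
      rw [← Finset.add_sum_erase _ _ hmem,
        ← Finset.add_sum_erase univ (fun q' : m.primeFactors => chi (jacobiSym (q' : ℕ) q))
          (Finset.mem_univ ⟨q, hq⟩)] at h1
      have h2 : ∑ q' ∈ (univ.filter (fun q : m.primeFactors => v q = 1)).erase ⟨q, hq⟩,
          chi (jacobiSym q (q' : ℕ)) + (∑ q' ∈ univ.erase (⟨q, hq⟩ : m.primeFactors),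
          chi (jacobiSym (q' : ℕ) q) + ∑ l, chi (jacobiSym (p l) q)) +
          chi (jacobiSym (q : ℤ) (th (dv m v))) = 0 := by
        rw [← h1]
        have := z2_self (chi (jacobiSym q q))
        linear_combination (exp := 1) -this
      have hs1 : ∀ q' ∈ (univ.filter (fun q : m.primeFactors => v q = 1)).erase ⟨q, hq⟩,
          jacobiSym q (q' : ℕ) = 1 ∨ jacobiSym q (q' : ℕ) = -1 := fun q' hq' =>
        J_small (q := ⟨q, hq⟩) (Finset.mem_erase.1 hq').1.symm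
      have hs2 : ∀ q' ∈ univ.erase (⟨q, hq⟩ : m.primeFactors),
          jacobiSym (q' : ℕ) q = 1 ∨ jacobiSym (q' : ℕ) q = -1 := fun q' hq' =>
        J_small (q' := ⟨q, hq⟩) (Finset.mem_erase.1 hq').1
      have hs3 : ∀ l ∈ (univ : Finset (Fin k)),
          jacobiSym (p l) q = 1 ∨ jacobiSym (p l) q = -1 := fun l _ => J_large hp l ⟨q, hq⟩
      rw [← chi_prod _ _ hs1, ← chi_prod _ _ hs2, ← chi_prod _ _ hs3,
        ← chi_mul (sign_prod _ _ hs2) (sign_prod _ _ hs3),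
        ← chi_mul (sign_prod _ _ hs1) (sign_mul (sign_prod _ _ hs2) (sign_prod _ _ hs3)),
        ← chi_mul (sign_mul (sign_prod _ _ hs1) (sign_mul (sign_prod _ _ hs2) (sign_prod _ _ hs3)))
          (th_sign (Nat.prime_of_mem_primeFactors hq) (ne3 h3 ⟨q, hq⟩))] at h2
      have h6 := chi_eq_zero.1 h2
      have hqp := Nat.prime_of_mem_primeFactors hq
      have hm' : m / q = ∏ q' ∈ univ.erase (⟨q, hq⟩ : m.primeFactors), (q' : ℕ) := by
        conv_lhs => rw [← prod_pf hm]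
        rw [← Finset.mul_prod_erase univ (fun q : m.primeFactors => (q : ℕ))
          (Finset.mem_univ ⟨q, hq⟩)]
        exact Nat.mul_div_cancel_left _ hqp.pos
      have ha' : dv m v / q = ∏ q' ∈ (univ.filter (fun q : m.primeFactors => v q = 1)).erase
          ⟨q, hq⟩, (q' : ℕ) := by
        unfold dv
        rw [← Finset.mul_prod_erase _ (fun q : m.primeFactors => (q : ℕ)) hmem]
        exact Nat.mul_div_cancel_left _ hqp.pos
      rw [hm', ha', Nat.cast_mul, jacobiSym.mul_left, J_prod_left, J_prod_left,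
        J_prod_right _ _ _ fun i _ => (Nat.prime_of_mem_primeFactors i.2).ne_zero]
      rw [← h6]; ring
  funext i
  rcases i with q | l
  · rw [hv, hv0]; rfl
  · exact h0 l

end

end Vale.Agent.P017.H735D
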