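import Vale.Agent.P017.H735.D.FlipB

/-!
# Flipping the mutual symbols, `3` inert and `5` split: conclusion
-/

namespace Vale.Agent.P017.H735D

open Finset Matrix Vale.Agent.P017.H262 Vale.Agent.P017.H12
open Vale.Agent.P017.H735 (J3_one J5_one J5_neg Crit LocN)

section
variable {k m : ℕ}

theorem prod_mod60 {p : Fin k → ℕ} (h : ∀ l, p l % 60 = 1) : (∏ l, p l) % 60 = 1 := by
  rw [Finset.prod_nat_mod]
  rw [Finset.prod_congr rfl fun l _ => h l]
  simp

theorem f5_large {q : ℕ} (h : q % 60 = 1) : f5 q = 0 := by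
  unfold f5
  have hodd : Odd q := Nat.odd_iff.2 (by omega)
  have h1 : jacobiSym ((5 : ℕ) : ℤ) q = 1 := by
    have := J5_one hodd (Or.inl (by omega))
    exact_mod_cast this
  rw [h1, chi_one]

theorem a3_large {q : ℕ} (h : q % 60 = 1) : a3 q = 0 := by
  unfold a3
  rw [J3_one (by omega), chi_one]

/-- **flipping** -/
theorem flipB (k m : ℕ) (p₀ : Fin k → ℕ) (hk : 0 < k) (hm : Squarefree m) (hm4 : m % 4 = 3)
    (hm3 : m % 3 = 1) (hm5 : m % 5 = 1 ∨ m % 5 = 4) (hp₀ : Adm m p₀) (hg : GoodB k m p₀) :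
    ∃ b : Fin k → Fin k → ℤ, (∀ l l', b l l' = 1 ∨ b l l' = -1) ∧
    ∀ p : Fin k → ℕ, Adm m p → (∀ l, p l % 60 = 1) → SamePat m p p₀ →
      (∀ l l', l < l' → jacobiSym (p l) (p l') = b l l') → Crit (m * ∏ l, p l) := by
  obtain ⟨β, hsym, hker⟩ := flip_core hk (SB m p₀) (hRB hm hm3 hm5 hp₀ hg)
    (hLB hm hm4 hm3 hm5 hp₀ hg)
  refine ⟨fun l l' => if β l l' = 0 then 1 else -1, fun l l' => ?_, ?_⟩
  · by_cases h : β l l' = 0 <;> simp [h]
  intro p hp h60 hpat hb c hc hc10 hc2 hc3 hloc
  have hprod60 := prod_mod60 h60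
  obtain ⟨d, hd⟩ : ∃ d, d = m * ∏ l, p l := ⟨_, rfl⟩
  have hd60 : d % 60 = m % 60 := by
    rw [hd, Nat.mul_mod, hprod60, mul_one, Nat.mod_mod]
  have hd4 : d % 4 = 3 := by omega
  have hd3 : d % 3 = 1 := by omega
  have hd5 : ¬ 5 ∣ d := by omega
  have hdsq : Squarefree d := by rw [hd]; exact sqf_PP hm hp
  rw [← hd] at hc10 hc2 hloc ⊢
  have hc2' := hc2 hd4
  -- the divisor a
  obtain ⟨a, ha, hca⟩ : ∃ a, a ∣ d ∧ c = fv a * a := by
    have hc5d : c ∣ 5 * d := by
      have h1 : c ∣ 2 * (5 * d) := hc10.trans ⟨1, by ring⟩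
      exact Nat.Coprime.dvd_of_dvd_mul_left
        (((Nat.Prime.coprime_iff_not_dvd Nat.prime_two).mpr hc2').symm) h1
    by_cases h5c : 5 ∣ c
    · obtain ⟨a, ha⟩ := h5c
      refine ⟨a, ?_, ?_⟩
      · rw [ha] at hc5d
        exact (Nat.mul_dvd_mul_iff_left (by norm_num)).mp hc5d
      · unfold fv
        rw [if_pos (by omega), ha]
    · refine ⟨c, ?_, ?_⟩
      · exact Nat.Coprime.dvd_of_dvd_mul_left
          (((Nat.Prime.coprime_iff_not_dvd Nat.prime_five).mpr h5c).symm) hc5d
      · unfold fv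
        rw [if_neg (by omega), one_mul]
  have ha' : a ∣ m * ∏ l, p l := hd ▸ ha
  have ha3 : ¬ 3 ∣ a := fun h => by
    have := h.trans ha
    omega
  have hchi : ∀ l l', l ≠ l' → β l l' = chi (jacobiSym (p l') (p l)) := by
    have key : ∀ l l', l < l' → chi (jacobiSym (p l) (p l')) = β l l' := by
      intro l l' hlt
      rw [hb l l' hlt]
      rcases z2_cases (β l l') with h | h
      · simp [h, chi]
      · simp [h, chi]
    intro l l' hne
    rcases lt_or_gt_of_ne hne with h | h
    · rw [jacobiSym.quadratic_reciprocity_one_mod_four (hp.four l')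
        (Nat.odd_iff.2 (by have := hp.four l; omega))]
      exact (key l l' h).symm
    · rw [hsym]
      exact (key l' l h).symm
  have hS : ∀ i j, i ≠ j → S (SB m p₀) β i j =
      chi (jacobiSym (PP m p j) (PP m p i)) + f5 (PP m p i) * a3 (PP m p j) := by
    rintro (q | l) (q' | l') hne
    · rfl
    · simp only [S, SB, PP]
      rw [hpat l' q q.2, a3_large (h60 l'), mul_zero, add_zero]
    · simp only [S, SB, PP]
      rw [← hpat l q' q'.2, jacobiSym.quadratic_reciprocity_one_mod_four (hp.four l)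
        (Odd.of_dvd_nat (odd_of_mod hm4) (Nat.dvd_of_mem_primeFactors q'.2)), f5_large (h60 l),
        zero_mul, add_zero]
    · simp only [PP]
      rw [f5_large (h60 l), zero_mul, add_zero]
      exact hchi l l' fun h => hne (congrArg Sum.inr h)
  have hsgn : ∀ i j, i ≠ j → jacobiSym (PP m p j) (PP m p i) = 1 ∨
      jacobiSym (PP m p j) (PP m p i) = -1 := fun i j hne =>
    J_sign (PP_prime hp j) (PP_prime hp i) fun h => hne (PP_inj hp h).symm
  have hdvd : ∀ i, PP m p i ∣ d := by
    intro i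
    rw [hd, ← prod_PP hm]
    exact Finset.dvd_prod_of_mem _ (Finset.mem_univ i)
  have hne3 : ∀ i, PP m p i ≠ 3 := by
    intro i h
    have := hdvd i
    rw [h] at this
    omega
  have hne5 : ∀ i, PP m p i ≠ 5 := by
    intro i h
    exact hd5 (h ▸ hdvd i)
  have hne2 : ∀ i, PP m p i ≠ 2 := by
    intro i h
    have := hdvd i
    rw [h] at this
    omega
  have hsgn3 : ∀ i, jacobiSym (PP m p i) 3 = 1 ∨ jacobiSym (PP m p i) 3 = -1 := fun i =>
    J_sign (PP_prime hp i) Nat.prime_three (hne3 i)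
  let x : m.primeFactors ⊕ Fin k → ZMod 2 := fun i => if PP m p i ∣ a then 1 else 0
  have hx1 : ∀ i, x i = 1 ↔ PP m p i ∣ a := by
    intro i
    by_cases h : PP m p i ∣ a <;> simp [x, h]
  have ha3sum : ∑ j, a3 (PP m p j) = 0 := by
    unfold a3
    rw [← chi_prod _ _ fun j _ => hsgn3 j, ← J_prod_left, prod_PP hm, ← hd, J3_one hd3, chi_one]
  have ha3x : ∑ j, a3 (PP m p j) * x j = chi (jacobiSym (a : ℤ) 3) := by
    rw [sum_mul_eq]
    simp only [hx1]
    unfold a3
    rw [← chi_prod _ _ fun j _ => hsgn3 j, ← J_prod_left, ← dvd_eq_prod hm hp ha']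
  have hrow : ∀ i, (R (S (SB m p₀) β) *ᵥ x) i =
      ∑ j, chi (jacobiSym (PP m p j) (PP m p i)) * (x j + x i) +
        chi (jacobiSym (fv a : ℤ) (PP m p i)) := by
    intro i
    rw [R_mulVec, ← chi_fv ha3, ← ha3x]
    have h1 : ∀ j, S (SB m p₀) β i j * (x j + x i) =
        chi (jacobiSym (PP m p j) (PP m p i)) * (x j + x i) +
          (f5 (PP m p i) * (a3 (PP m p j) * x j) + f5 (PP m p i) * x i * a3 (PP m p j)) := by
      intro j
      by_cases hij : i = j
      · subst hij
        have h2 := z2_self (x i)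
        rw [h2, mul_zero, mul_zero, zero_add]
        linear_combination (-(f5 (PP m p i) * a3 (PP m p i))) * h2
      · rw [hS i j hij]; ring
    rw [Finset.sum_congr rfl fun j _ => h1 j, Finset.sum_add_distrib, Finset.sum_add_distrib,
      ← Finset.mul_sum, ← Finset.mul_sum, ha3sum, mul_zero, add_zero]
  have hx : R (S (SB m p₀) β) *ᵥ x = 0 := by
    funext i
    rw [hrow, Pi.zero_apply]
    have hPi := PP_prime hp i
    have hfs := fv_sign (a := a) hPi (hne5 i)
    obtain ⟨l1, l2⟩ := hloc _ hPi (hne2 i) (hdvd i)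
    by_cases hi : PP m p i ∣ a
    · have hxi : x i = 1 := (hx1 i).2 hi
      have hs : ∀ j ∈ univ.filter (fun j => ¬ PP m p j ∣ a),
          jacobiSym (PP m p j) (PP m p i) = 1 ∨ jacobiSym (PP m p j) (PP m p i) = -1 := fun j hj =>
        hsgn i j (by rintro rfl; exact (Finset.mem_filter.1 hj).2 hi)
      rw [hxi, sum_mul_eq']
      simp only [hx1]
      rw [← chi_prod _ _ hs, ← chi_mul (sign_prod _ _ hs) hfs, ← J_prod_left,
        ← div_eq_prod hm hp ha', ← hd, chi_eq_zero]
      have hic : PP m p i ∣ c := by rw [hca]; exact hi.mul_left _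
      have h3 := l2 hic
      obtain ⟨a', ha1⟩ := hi
      have hai : ¬ PP m p i ∣ a' := by
        rintro ⟨e, he⟩
        have := (hdsq.squarefree_of_dvd ha) (PP m p i) ⟨e, by rw [ha1, he]; ring⟩
        exact hPi.one_lt.ne' (Nat.isUnit_iff.1 this)
      obtain ⟨e, he⟩ := ha
      have hda : d / a = e := by
        rw [he]; exact Nat.mul_div_cancel_left _ (Nat.pos_of_ne_zero (by
          rintro rfl; exact ha3 (dvd_zero _)))
      have hdi : d / PP m p i = a' * e := by
        rw [he, ha1, mul_assoc]; exact Nat.mul_div_cancel_left _ hPi.pos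
      have hci : c / PP m p i = fv a * a' := by
        have e1 : fv a * a = PP m p i * (fv a * a') := by
          have e2 : fv a * a = fv a * (PP m p i * a') := congrArg (fun t => fv a * t) ha1
          rw [e2]; ring
        rw [hca, e1]
        exact Nat.mul_div_cancel_left _ hPi.pos
      have hnd : ¬ PP m p i ∣ d / PP m p i * (c / PP m p i) := by
        intro h
        rcases (Nat.Prime.dvd_mul hPi).mp h with h | h
        · exact Vale.Agent.P017.H735.ndvd_div hdsq hPi (hdvd i) h
        · exact Vale.Agent.P017.H735.ndvd_div hc hPi hic h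
      have h4 := J_of_isSquare hPi hnd h3
      rw [hdi, hci] at h4
      have h5 : ((a' * e * (fv a * a') : ℕ) : ℤ) = (e : ℤ) * (fv a : ℤ) * (a' : ℤ) ^ 2 := by
        push_cast; ring
      have h6 : jacobiSym ((a' : ℤ) ^ 2) (PP m p i) = 1 := by
        apply jacobiSym.sq_one'
        rw [Int.gcd_natCast_natCast]
        exact ((Nat.Prime.coprime_iff_not_dvd hPi).2 hai).symm
      rw [h5, jacobiSym.mul_left, h6, mul_one, jacobiSym.mul_left] at h4
      rw [hda]
      exact h4
    · have hxi : x i = 0 := (z2_cases _).resolve_right fun h => hi ((hx1 i).1 h)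
      have hs : ∀ j ∈ univ.filter (fun j => PP m p j ∣ a),
          jacobiSym (PP m p j) (PP m p i) = 1 ∨ jacobiSym (PP m p j) (PP m p i) = -1 := fun j hj =>
        hsgn i j (by rintro rfl; exact hi (Finset.mem_filter.1 hj).2)
      simp only [hxi, add_zero]
      rw [sum_mul_eq]
      simp only [hx1]
      rw [← chi_prod _ _ hs, ← chi_mul (sign_prod _ _ hs) hfs, ← J_prod_left,
        ← dvd_eq_prod hm hp ha', chi_eq_zero]
      have hic : ¬ PP m p i ∣ c := by
        rw [hca]
        intro h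
        rcases (Nat.Prime.dvd_mul hPi).mp h with h | h
        · unfold fv at h
          split_ifs at h
          · exact hne5 i ((Nat.prime_dvd_prime_iff_eq hPi Nat.prime_five).mp h)
          · exact hPi.one_lt.ne' (Nat.dvd_one.mp h)
        · exact hi h
      have h3 := J_of_isSquare hPi hic (l1 hic)
      rw [hca, Nat.cast_mul, jacobiSym.mul_left, mul_comm] at h3
      exact h3
  rcases hker x hx with h | h
  · left
    have ha1 : a = 1 := by
      rw [dvd_eq_prod hm hp ha']
      apply Finset.prod_eq_one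
      intro i hi
      have h1 := (hx1 i).2 (Finset.mem_filter.1 hi).2
      rw [h] at h1
      simp at h1
    rw [hca, ha1]
    rfl
  · right
    have hall : ∀ i, PP m p i ∣ a := fun i => (hx1 i).1 (by rw [h]; rfl)
    have had : a = d := by
      conv_lhs => rw [dvd_eq_prod hm hp ha']
      rw [hd, ← prod_PP hm]
      apply Finset.prod_congr _ fun _ _ => rfl
      simp [hall]
    rw [hca, had]
    unfold fv
    rw [if_neg (by omega), one_mul]

end

end Vale.Agent.P017.H735D
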