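import Vale.Agent.P017.H735.D.FirstB
import Vale.Agent.P017.H735.D.Dens
import Vale.Agent.P017.H185.Fam

/-!
# Positive proportion: the residue classes
-/

set_option linter.all false

namespace Vale.Agent.P017.H735D

open Finset Real Vale.Agent.P017.H262 Vale.Agent.P017.H12

theorem err_nonneg {k m : ℕ} (j : Fin k → ℕ) :
    0 ≤ ∑ l, (∏ l' ∈ univ.erase l, ((PB (j l')).card : ℝ)) *
      ∑ a ∈ m.divisors, ∑ e ∈ a.divisors.erase 1, |SP (j l) e| :=
  Finset.sum_nonneg fun _ _ => mul_nonneg (Finset.prod_nonneg fun _ _ => Nat.cast_nonneg _)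
    (Finset.sum_nonneg fun _ _ => Finset.sum_nonneg fun _ _ => abs_nonneg _)

/-- the input, `3` inert and `5` split -/
noncomputable def dataB (r : ℕ) (hlt : r < 60) (hc : Nat.Coprime r 30)
    (h4 : r % 4 = 3) (h3 : r % 3 = 1) (h5 : r % 5 = 1 ∨ r % 5 = 4) : Data r where
  Gd := GoodB
  g := fun m => GB m + GB' m
  Cr := H735.Crit
  two_le := by omega
  lt := hlt
  cop := hc
  odd := by omega
  g_nonneg := fun m => add_nonneg (GB_nonneg m) (GB'_nonneg m)
  gavg := gavgB (by omega) h3 h5
  congr := fun hm h hg => goodB_congr hm h hg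
  flip := fun k m p₀ hk hm h60 hp _ hg =>
    flipB k m p₀ hk hm (by omega) (by omega) (by omega) hp hg
  first := fun k m j hk hm h60 hj => (firstB hk hm (by omega) (by omega) hj).trans
    (add_le_add le_rfl (mul_le_mul_of_nonneg_right (by norm_num) (err_nonneg j)))

/-- the input, `3` split and `5` inert -/
noncomputable def dataA (r : ℕ) (hlt : r < 60) (hc : Nat.Coprime r 30)
    (h4 : r % 4 = 3) : Data r where
  Gd := fun k m p => Good m p
  g := fun m => G m + G' m
  Cr := Redei
  two_le := by omega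
  lt := hlt
  cop := hc
  odd := by omega
  g_nonneg := fun m => add_nonneg (G_nonneg m) (G'_nonneg m)
  gavg := gavgA (by omega)
  congr := fun hm h hg => good_congr hm h hg
  flip := fun k m p₀ hk hm h60 hp _ hg => by
    obtain ⟨b, h1, h2⟩ := H12.flip k m p₀ hk hm (by omega) hp hg
    exact ⟨b, h1, fun p hp _ hs hb => h2 p hp hs hb⟩
  first := fun k m j hk hm h60 hj => by
    have hcm : Nat.Coprime m 30 := by
      have h2 : m % 30 = r % 30 := by omega
      rw [Nat.Coprime, Nat.gcd_comm, Nat.gcd_rec] at hc ⊢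
      rw [h2]; exact hc
    have h1 := H12.firstMoment k m j hk hm hcm hj
    refine h1.trans (add_le_add (mul_le_mul_of_nonneg_left (mul_le_mul_of_nonneg_left ?_ ?_) ?_)
      (mul_le_mul_of_nonneg_right (by norm_num) (err_nonneg j)))
    · linarith
    · positivity
    · exact Finset.prod_nonneg fun _ _ => Nat.cast_nonneg _

end Vale.Agent.P017.H735D
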