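import Vale.Agent.P017.H262.ErrM
import Vale.Agent.P017.H262.Cnt
import Vale.Agent.P017.H262.Asm2
import Vale.Agent.P017.H262.Inj

/-!
# Positive proportion, abstract form

The argument of `Vale.Agent.P017.H262` for an arbitrary residue class `r` modulo `60` and an
arbitrary notion of good tuple.
-/

set_option linter.all false

namespace Vale.Agent.P017.H735D

open Finset Real Vale.Agent.P017.H262

/-- the squarefree `m ≡ r mod 60` in `[2^i, 2^(i+1))` -/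
def MR (r i : ℕ) : Finset ℕ :=
  (Ico (2 ^ i) (2 ^ (i + 1))).filter (fun m => Squarefree m ∧ m % 60 = r)

open Classical in
/-- the input of the argument -/
structure Data (r : ℕ) where
  /-- good tuples -/
  Gd : (k : ℕ) → ℕ → (Fin k → ℕ) → Prop
  /-- weight of the bad vectors -/
  g : ℕ → ℝ
  /-- the property to be proved -/
  Cr : ℕ → Prop
  two_le : 2 ≤ r
  lt : r < 60
  cop : Nat.Coprime r 30
  odd : r % 2 = 1
  g_nonneg : ∀ m, 0 ≤ g m
  gavg : ∃ C : ℝ, 0 < C ∧ ∀ Y : ℕ, 2 ≤ Y →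
    ∑ m ∈ (Icc 1 Y).filter (fun m => Squarefree m ∧ m % 60 = r), g m / (m : ℝ) ≤ C * Real.log Y
  congr : ∀ {k m : ℕ} {p p' : Fin k → ℕ}, Squarefree m → SamePat m p p' → Gd k m p → Gd k m p'
  flip : ∀ (k m : ℕ) (p₀ : Fin k → ℕ), 0 < k → Squarefree m → m % 60 = r →
    Adm m p₀ → (∀ l, p₀ l % 60 = 1) → Gd k m p₀ → ∃ b : Fin k → Fin k → ℤ, (∀ l l', b l l' = 1 ∨ b l l' = -1) ∧
      ∀ p : Fin k → ℕ, Adm m p → (∀ l, p l % 60 = 1) → SamePat m p p₀ →
        (∀ l l', l < l' → jacobiSym (p l) (p l') = b l l') → Cr (m * ∏ l, p l)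
  first : ∀ (k m : ℕ) (j : Fin k → ℕ), 0 < k → Squarefree m → m % 60 = r → (∀ l, m < 2 ^ j l) →
    (((Fintype.piFinset fun l => PB (j l)).filter (fun p => ¬ Gd k m p)).card : ℝ) ≤
      (∏ l, ((PB (j l)).card : ℝ)) * ((1 / 2 : ℝ) ^ (k - 1) * g m) +
        16 * ∑ l, (∏ l' ∈ univ.erase l, ((PB (j l')).card : ℝ)) *
          ∑ a ∈ m.divisors, ∑ e ∈ a.divisors.erase 1, |SP (j l) e|

section

variable {r : ℕ} (D : Data r)

/-- what the bits should do -/
def QR {k : ℕ} (m : ℕ) (p : Fin k → ℕ) (b : Fin k → Fin k → ℤ) : Prop :=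
  (∀ l l', b l l' = 1 ∨ b l l' = -1) ∧ ∀ p' : Fin k → ℕ, Adm m p' → (∀ l, p' l % 60 = 1) →
      SamePat m p' p →
      (∀ l l', l < l' → jacobiSym (p' l) (p' l') = b l l') → D.Cr (m * ∏ l, p' l)

theorem QR_congr {k m : ℕ} {p p' : Fin k → ℕ} (h : SamePat m p p') : QR D m p = QR D m p' := by
  funext b
  apply propext
  constructor
  · rintro ⟨h1, h2⟩
    exact ⟨h1, fun p'' ha h60 hs hb => h2 p'' ha h60 (hs.trans' h.symm') hb⟩
  · rintro ⟨h1, h2⟩
    exact ⟨h1, fun p'' ha h60 hs hb => h2 p'' ha h60 (hs.trans' h) hb⟩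

open Classical in
/-- the bits -/
noncomputable def br {k : ℕ} (m : ℕ) (p : Fin k → ℕ) : Fin k → Fin k → ℤ := pick (QR D m p)

theorem br_val {k m : ℕ} (p : Fin k → ℕ) (l l' : Fin k) : br D m p l l' = 1 ∨ br D m p l l' = -1 := by
  by_cases h : ∃ b, QR D m p b
  · exact (pick_spec h).1 l l'
  · left
    unfold br pick
    rw [dif_neg h]

include D in
theorem Data.mods : r % 2 = 1 ∧ r % 3 ≠ 0 ∧ r % 5 ≠ 0 := by
  have h := D.cop
  refine ⟨D.odd, fun h3 => ?_, fun h5 => ?_⟩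
  · have : 3 ∣ Nat.gcd r 30 := Nat.dvd_gcd (Nat.dvd_of_mod_eq_zero h3) (by norm_num)
    rw [h] at this
    omega
  · have : 5 ∣ Nat.gcd r 30 := Nat.dvd_gcd (Nat.dvd_of_mod_eq_zero h5) (by norm_num)
    rw [h] at this
    omega

include D in
theorem m_lt' {m : ℕ} (h60 : m % 60 = r) : m < m ^ 10 := by
  have h2 := D.two_le
  have : 2 ≤ m := by omega
  calc m = m ^ 1 := (pow_one m).symm
    _ < m ^ 10 := Nat.pow_lt_pow_right (by omega) (by norm_num)

include D in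
theorem sz_pos {k m : ℕ} {j : Fin k → ℕ} (h : Sz m j) (h60 : m % 60 = r) (l : Fin k) :
    1 ≤ j l := by
  by_contra hcon
  have h1 : j l = 0 := by omega
  have h2 := h.big l
  rw [h1, pow_zero] at h2
  have := m_lt' D h60
  have h3 := D.two_le
  omega

include D in
theorem adm_of_mem' {k m : ℕ} {j : Fin k → ℕ} (h : Sz m j) (h60 : m % 60 = r)
    {p : Fin k → ℕ} (hp : p ∈ Fintype.piFinset fun l => PB (j l)) : Adm m p := by
  rw [Fintype.mem_piFinset] at hp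
  have hmem := fun l => H12.mem_PB (hp l)
  have hr2 := D.two_le
  refine ⟨fun l => (hmem l).2.2.1, fun l => ?_, fun l hd => ?_, ?_⟩
  · have := (hmem l).2.2.2
    omega
  · have h1 : p l ≤ m := Nat.le_of_dvd (by omega) hd
    have h2 := h.big l
    have h3 := (hmem l).1
    have h4 := m_lt' D h60
    omega
  · have key : ∀ l l', l < l' → p l' < p l := by
      intro l l' hll
      have h1 := h.sep l l' hll
      have h2 := sz_pos D h h60 l'
      have h3 : 2 ^ (j l' + 1) ≤ 2 ^ j l := Nat.pow_le_pow_right (by norm_num) (by omega)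
      have h4 := (hmem l').2.1
      have h5 := (hmem l).1
      omega
    intro l l' hll
    rcases lt_trichotomy l l' with h1 | h1 | h1
    · have := key l l' h1; omega
    · exact h1
    · have := key l' l h1; omega

include D in
theorem cop_m {m : ℕ} (h60 : m % 60 = r) : Nat.Coprime m 30 := by
  have h1 := D.cop
  have h2 : m % 30 = r % 30 := by omega
  rw [Nat.Coprime, Nat.gcd_comm, Nat.gcd_rec] at h1 ⊢
  rw [h2]; exact h1

open Classical in
/-- the bad part -/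
noncomputable def badR {k : ℕ} (m : ℕ) (j : Fin k → ℕ) : ℝ :=
  (∏ l, ((PB (j l)).card : ℝ)) * ((1 / 2 : ℝ) ^ (k - 1) * D.g m) +
      16 * ∑ l, (∏ l' ∈ univ.erase l, ((PB (j l')).card : ℝ)) *
        ∑ a ∈ m.divisors, ∑ e ∈ a.divisors.erase 1, |SP (j l) e|

open Classical in
theorem perR (k : ℕ) : ∃ C : ℝ, 0 ≤ C ∧ ∀ (m : ℕ) (j : Fin k → ℕ), 0 < k → Squarefree m → m % 60 = r →
    Sz m j →
    (1 / 2 : ℝ) ^ (k * (k - 1) / 2) * ((∏ l, ((PB (j l)).card : ℝ)) - badR D m j) -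
      C * (∏ l, (2 : ℝ) ^ j l) * ∑ l, (2 : ℝ) ^ (-(j l : ℝ) / 10) ≤
    (((Fintype.piFinset fun l => PB (j l)).filter (fun p => D.Cr (m * ∏ l, p l))).card : ℝ) := by
  obtain ⟨C, hbits⟩ := H12.bits k
  refine ⟨max C 0, le_max_right _ _, fun m j hk hm h60 hsz => ?_⟩
  have hr2 := D.two_le
  have h1 := hbits m j hk (by omega) hsz.sep hsz.big (D.Gd k m) (br D m)
    (fun p p' h => ⟨⟨D.congr hm h, D.congr hm h.symm'⟩, congrArg pick (QR_congr D h)⟩)
    (fun p l l' => br_val D p l l')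
  have hsub : (Fintype.piFinset fun l => PB (j l)).filter (fun p => D.Gd k m p ∧ ∀ l l', l < l' →
      jacobiSym (p l) (p l') = br D m p l l') ⊆
      (Fintype.piFinset fun l => PB (j l)).filter (fun p => D.Cr (m * ∏ l, p l)) := by
    intro p hp
    rw [Finset.mem_filter] at hp
    obtain ⟨hp1, hg, hb⟩ := hp
    rw [Finset.mem_filter]
    refine ⟨hp1, ?_⟩
    have hadm := adm_of_mem' D hsz h60 hp1
    have hp60 : ∀ l, p l % 60 = 1 := by
      have hp1' := hp1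
      rw [Fintype.mem_piFinset] at hp1'
      exact fun l => (H12.mem_PB (hp1' l)).2.2.2
    have hex : ∃ b, QR D m p b := D.flip k m p hk hm h60 hadm hp60 hg
    exact (pick_spec hex).2 p hadm hp60 (fun _ _ _ => rfl) hb
  have h2 : (((Fintype.piFinset fun l => PB (j l)).filter (fun p => D.Gd k m p ∧ ∀ l l', l < l' →
      jacobiSym (p l) (p l') = br D m p l l')).card : ℝ) ≤
      (((Fintype.piFinset fun l => PB (j l)).filter (fun p => D.Cr (m * ∏ l, p l))).card : ℝ) := by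
    exact_mod_cast Finset.card_le_card hsub
  have hlt : ∀ l, m < 2 ^ j l := fun l => (m_lt' D h60).trans_le (hsz.big l)
  have h3 := D.first k m j hk hm h60 hlt
  have h5 : (((Fintype.piFinset fun l => PB (j l)).filter (fun p => D.Gd k m p)).card : ℝ) +
      (((Fintype.piFinset fun l => PB (j l)).filter (fun p => ¬ D.Gd k m p)).card : ℝ) =
      ∏ l, ((PB (j l)).card : ℝ) := by
    have := Finset.card_filter_add_card_filter_not (s := Fintype.piFinset fun l => PB (j l)) (D.Gd k m)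
    have h6 : (Fintype.piFinset fun l => PB (j l)).card = ∏ l, (PB (j l)).card :=
      Fintype.card_piFinset _
    rw [h6] at this
    exact_mod_cast this
  have h7 : (∏ l, ((PB (j l)).card : ℝ)) - badR D m j ≤
      (((Fintype.piFinset fun l => PB (j l)).filter (fun p => D.Gd k m p)).card : ℝ) := by
    unfold badR
    linarith
  have h8 : (0 : ℝ) ≤ (∏ l, (2 : ℝ) ^ j l) * ∑ l, (2 : ℝ) ^ (-(j l : ℝ) / 10) :=
    mul_nonneg (Finset.prod_nonneg fun _ _ => by positivity)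
      (Finset.sum_nonneg fun _ _ => by positivity)
  have h9 : C * (∏ l, (2 : ℝ) ^ j l) * ∑ l, (2 : ℝ) ^ (-(j l : ℝ) / 10) ≤
      max C 0 * (∏ l, (2 : ℝ) ^ j l) * ∑ l, (2 : ℝ) ^ (-(j l : ℝ) / 10) := by
    rw [mul_assoc, mul_assoc]
    exact mul_le_mul_of_nonneg_right (le_max_left _ _) h8
  have h10 : (1 / 2 : ℝ) ^ (k * (k - 1) / 2) * ((∏ l, ((PB (j l)).card : ℝ)) - badR D m j) ≤
      (1 / 2 : ℝ) ^ (k * (k - 1) / 2) *
      (((Fintype.piFinset fun l => PB (j l)).filter (fun p => D.Gd k m p)).card : ℝ) :=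
    mul_le_mul_of_nonneg_left h7 (by positivity)
  linarith

include D in
theorem sum_tauR {i j : ℕ} : ∑ m ∈ MR r i, ∑ a ∈ m.divisors, ∑ e ∈ a.divisors.erase 1, |SP j e| ≤
    2 ^ (i + 1) * (i + 2) * ∑ e ∈ (Icc 2 (2 ^ (i + 1))).filter
      (fun e => Squarefree e ∧ Nat.Coprime e 30), |SP j e| / (e : ℝ) := by
  set M : ℕ := 2 ^ (i + 1) with hM
  have hM1 : 1 ≤ M := Nat.one_le_two_pow
  set E := (Icc 2 M).filter (fun e => Squarefree e ∧ Nat.Coprime e 30) with hE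
  have e1 : ∑ m ∈ MR r i, ∑ a ∈ m.divisors, ∑ e ∈ a.divisors.erase 1, |SP j e| =
      ∑ x ∈ ((MR r i).sigma fun m => m.divisors).sigma fun x => x.2.divisors.erase 1, |SP j x.2| := by
    rw [Finset.sum_sigma, Finset.sum_sigma]
  have hmem : ∀ x ∈ ((MR r i).sigma fun m => m.divisors).sigma fun x => x.2.divisors.erase 1,
      x.1.2 * (x.1.1 / x.1.2) = x.1.1 ∧ x.2 * (x.1.2 / x.2) = x.1.2 ∧ x.2 ∈ E ∧
        x.1.2 / x.2 ∈ Icc 1 M ∧ x.1.1 / x.1.2 ∈ Icc 1 (M / (x.2 * (x.1.2 / x.2))) := by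
    rintro ⟨⟨m, a⟩, e⟩ hx
    rw [Finset.mem_sigma, Finset.mem_sigma, Finset.mem_erase, Nat.mem_divisors, Nat.mem_divisors,
      MR, Finset.mem_filter, Finset.mem_Ico] at hx
    simp only at hx ⊢
    obtain ⟨⟨⟨⟨h1, h2⟩, h3, h4⟩, h5, h6⟩, h7, h8, h9⟩ := hx
    have hma : a * (m / a) = m := Nat.mul_div_cancel' h5
    have hae : e * (a / e) = a := Nat.mul_div_cancel' h8
    have hm0 : 0 < m := by omega
    have ha0 : 0 < a := Nat.pos_of_dvd_of_pos h5 hm0
    have he0 : 0 < e := Nat.pos_of_dvd_of_pos h8 ha0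
    have hem : e ∣ m := h8.trans h5
    have hmM : m ≤ M := h2.le
    have haM : a ≤ M := (Nat.le_of_dvd hm0 h5).trans hmM
    have hq0 : 0 < a / e := Nat.div_pos (Nat.le_of_dvd ha0 h8) he0
    have hr0 : 0 < m / a := Nat.div_pos (Nat.le_of_dvd hm0 h5) ha0
    refine ⟨hma, hae, ?_, ?_, ?_⟩
    · rw [hE, Finset.mem_filter, Finset.mem_Icc]
      refine ⟨⟨by omega, (Nat.le_of_dvd hm0 hem).trans hmM⟩, h3.squarefree_of_dvd hem, ?_⟩
      exact Nat.Coprime.coprime_dvd_left hem (cop_m D h4)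
    · rw [Finset.mem_Icc]
      exact ⟨hq0, (Nat.div_le_self _ _).trans haM⟩
    · rw [Finset.mem_Icc, hae]
      refine ⟨hr0, ?_⟩
      exact Nat.div_le_div_right hmM
  have e2 : ∑ x ∈ ((MR r i).sigma fun m => m.divisors).sigma fun x => x.2.divisors.erase 1, |SP j x.2| =
      ∑ y ∈ (((MR r i).sigma fun m => m.divisors).sigma fun x => x.2.divisors.erase 1).image
        (fun x => (⟨⟨x.2, x.1.2 / x.2⟩, x.1.1 / x.1.2⟩ : (_ : (_ : ℕ) × ℕ) × ℕ)), |SP j y.1.1| := by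
    rw [Finset.sum_image]
    rintro ⟨⟨m, a⟩, e⟩ hx ⟨⟨m', a'⟩, e'⟩ hy hxy
    have h1 := hmem _ hx
    have h2 := hmem _ hy
    simp only [Sigma.mk.injEq, heq_eq_eq] at hxy h1 h2 ⊢
    obtain ⟨⟨h3, h4⟩, h5⟩ := hxy
    have haa : a = a' := by
      rw [← h1.2.1, ← h2.2.1, h4, h3]
    have hmm : m = m' := by
      rw [← h1.1, ← h2.1, h5, haa]
    exact ⟨⟨hmm, haa⟩, h3⟩
  rw [e1, e2]
  have h3 : ∑ y ∈ (((MR r i).sigma fun m => m.divisors).sigma fun x => x.2.divisors.erase 1).image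
        (fun x => (⟨⟨x.2, x.1.2 / x.2⟩, x.1.1 / x.1.2⟩ : (_ : (_ : ℕ) × ℕ) × ℕ)), |SP j y.1.1| ≤
      ∑ y ∈ (E.sigma fun _ => Icc 1 M).sigma fun x => Icc 1 (M / (x.1 * x.2)), |SP j y.1.1| := by
    refine Finset.sum_le_sum_of_subset_of_nonneg ?_ fun _ _ _ => abs_nonneg _
    intro y hy
    rw [Finset.mem_image] at hy
    obtain ⟨x, hx, rfl⟩ := hy
    obtain ⟨_, _, h4, h5, h6⟩ := hmem x hx
    rw [Finset.mem_sigma, Finset.mem_sigma]
    exact ⟨⟨h4, h5⟩, h6⟩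
  refine h3.trans ?_
  rw [Finset.sum_sigma, Finset.sum_sigma, Finset.mul_sum]
  refine Finset.sum_le_sum fun e he => ?_
  rw [hE, Finset.mem_filter, Finset.mem_Icc] at he
  have he0 : (0 : ℝ) < e := by exact_mod_cast (by omega : 0 < e)
  have hMr : (1 : ℝ) ≤ M := by exact_mod_cast hM1
  simp only
  have h4 : ∀ x ∈ Icc 1 M, ∑ _y ∈ Icc 1 (M / (e * x)), |SP j e| ≤ (|SP j e| * (M / e)) * (1 / (x : ℝ)) := by
    intro x hx
    rw [Finset.mem_Icc] at hx
    have hx0 : (0 : ℝ) < x := by exact_mod_cast (by omega : 0 < x)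
    rw [Finset.sum_const, Nat.card_Icc, nsmul_eq_mul, Nat.add_sub_cancel]
    have h5 : ((M / (e * x) : ℕ) : ℝ) ≤ (M : ℝ) / ((e * x : ℕ) : ℝ) := Nat.cast_div_le
    calc _ ≤ (M : ℝ) / ((e * x : ℕ) : ℝ) * |SP j e| := mul_le_mul_of_nonneg_right h5 (abs_nonneg _)
      _ = _ := by push_cast; field_simp
  refine (Finset.sum_le_sum h4).trans ?_
  rw [← Finset.mul_sum]
  have h6 := harm_le hM1
  have h7 : Real.log M ≤ i + 1 := by
    rw [hM]
    push_cast
    rw [Real.log_pow]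
    have := Real.log_two_lt_d9
    have h8 : 0 ≤ Real.log 2 := Real.log_nonneg (by norm_num)
    push_cast
    have h9 : (0 : ℝ) ≤ i := Nat.cast_nonneg i
    nlinarith
  have e3 : (2 : ℝ) ^ (i + 1) = M := by rw [hM]; push_cast; rfl
  rw [e3]
  calc |SP j e| * (M / e) * ∑ x ∈ Icc 1 M, 1 / (x : ℝ) ≤ |SP j e| * (M / e) * (i + 2) :=
        mul_le_mul_of_nonneg_left (by linarith) (by positivity)
    _ = _ := by ring

/-- the bad parts of a block -/
theorem sum_badR {k : ℕ} (hk : 0 < k) (B : ℕ) : ∃ j₀ : ℕ, ∀ (n i : ℕ) (j : Fin k → ℕ), 1 ≤ n → i < n →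
    j₀ ≤ n → (∀ l, 10 * n ≤ j l) →
    ∑ m ∈ MR r i, badR D m j ≤ (∏ l, ((PB (j l)).card : ℝ)) * ((1 / 2 : ℝ) ^ (k - 1) *
      ∑ m ∈ MR r i, D.g m) + 32 * k * (∏ l, (2 : ℝ) ^ j l) * 2 ^ i * (i + 2) / (n : ℝ) ^ B := by
  obtain ⟨j₀, hj₀⟩ := charSum B
  refine ⟨j₀, fun n i j hn hi hjn hj => ?_⟩
  have hn' : (1 : ℝ) ≤ n := by exact_mod_cast hn
  set N : ℝ := ∏ l, ((PB (j l)).card : ℝ) with hN
  set W : ℝ := ∏ l, (2 : ℝ) ^ j l with hW
  have hN0 : 0 ≤ N := Finset.prod_nonneg fun _ _ => Nat.cast_nonneg _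
  have e1 : ∑ m ∈ MR r i, badR D m j = N * ((1 / 2 : ℝ) ^ (k - 1) * ∑ m ∈ MR r i, D.g m) +
      16 * ∑ l, (∏ l' ∈ univ.erase l, ((PB (j l')).card : ℝ)) *
        ∑ m ∈ MR r i, ∑ a ∈ m.divisors, ∑ e ∈ a.divisors.erase 1, |SP (j l) e| := by
    unfold badR
    rw [Finset.sum_add_distrib, ← Finset.mul_sum, ← Finset.mul_sum, ← Finset.mul_sum]
    congr 2
    rw [Finset.sum_comm]
    refine Finset.sum_congr rfl fun l _ => ?_
    rw [← Finset.mul_sum]
  rw [e1]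
  refine add_le_add le_rfl ?_
  · have h1 : ∀ l ∈ (univ : Finset (Fin k)), (∏ l' ∈ univ.erase l, ((PB (j l')).card : ℝ)) *
        ∑ m ∈ MR r i, ∑ a ∈ m.divisors, ∑ e ∈ a.divisors.erase 1, |SP (j l) e| ≤
        W * (2 ^ (i + 1) * (i + 2) / (n : ℝ) ^ B) := by
      intro l _
      have hjl : j₀ ≤ j l := by have := hj l; omega
      have hY : (2 ^ (i + 1)) ^ 10 ≤ 2 ^ j l := by
        rw [← pow_mul]
        refine Nat.pow_le_pow_right (by norm_num) ?_
        have := hj l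
        omega
      have h2 := hj₀ (j l) hjl (2 ^ (i + 1)) hY
      have h3 : (2 : ℝ) ^ j l / (j l : ℝ) ^ B ≤ 2 ^ j l / (n : ℝ) ^ B := by
        refine div_le_div_of_nonneg_left (by positivity) (by positivity) ?_
        refine pow_le_pow_left₀ (by linarith) ?_ B
        have : n ≤ j l := by have := hj l; omega
        exact_mod_cast this
      have h4 := sum_tauR D (i := i) (j := j l)
      have h5 : ∑ m ∈ MR r i, ∑ a ∈ m.divisors, ∑ e ∈ a.divisors.erase 1, |SP (j l) e| ≤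
          2 ^ (i + 1) * (i + 2) * (2 ^ j l / (n : ℝ) ^ B) :=
        h4.trans (mul_le_mul_of_nonneg_left (h2.trans h3) (by positivity))
      have h6 : ∏ l' ∈ univ.erase l, ((PB (j l')).card : ℝ) ≤ ∏ l' ∈ univ.erase l, (2 : ℝ) ^ j l' :=
        Finset.prod_le_prod (fun _ _ => Nat.cast_nonneg _) fun l' _ => PB_card (j l')
      have e2 : W = (∏ l' ∈ univ.erase l, (2 : ℝ) ^ j l') * 2 ^ j l := by
        rw [hW, mul_comm]
        exact (Finset.mul_prod_erase univ (fun l => (2 : ℝ) ^ j l) (Finset.mem_univ l)).symm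
      rw [e2]
      calc _ ≤ (∏ l' ∈ univ.erase l, (2 : ℝ) ^ j l') * (2 ^ (i + 1) * (i + 2) * (2 ^ j l / (n : ℝ) ^ B)) :=
            mul_le_mul h6 h5 (Finset.sum_nonneg fun _ _ => Finset.sum_nonneg fun _ _ =>
              Finset.sum_nonneg fun _ _ => abs_nonneg _) (Finset.prod_nonneg fun _ _ => by positivity)
        _ = _ := by ring
    have h2 := Finset.sum_le_sum h1
    rw [Finset.sum_const, Finset.card_univ, Fintype.card_fin, nsmul_eq_mul] at h2
    calc _ ≤ 16 * ((k : ℝ) * (W * (2 ^ (i + 1) * (i + 2) / (n : ℝ) ^ B))) :=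
          mul_le_mul_of_nonneg_left h2 (by norm_num)
      _ = _ := by rw [pow_succ]; ring

end

end Vale.Agent.P017.H735D
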