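import Vale.Agent.P017.H735.D.FirstB
import Vale.Agent.P017.H735.D.Per

/-!
# Positive proportion: `3` or `5` ramified

For `d = f m ∏ p l` with `f ∣ 15` and `p l ≡ 1 mod 60`.
-/

set_option linter.all false

namespace Vale.Agent.P017.H735D

open Finset Real Vale.Agent.P017.H262 Vale.Agent.P017.H12

theorem J_f {x f : ℕ} (hx : x % 60 = 1) (hf : f ∣ 15) : jacobiSym (x : ℤ) f = 1 := by
  have h1 : x ≡ 1 [MOD 60] := hx
  have h2 : x ≡ 1 [MOD f] := h1.of_dvd (hf.trans (by norm_num))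
  have h3 : (x : ℤ) % (f : ℤ) = ((1 : ℕ) : ℤ) % (f : ℤ) := (Int.natCast_modEq_iff.2 h2)
  rw [jacobiSym.mod_left' h3, Nat.cast_one, jacobiSym.one_left]

theorem J_f_prod {k : ℕ} {p : Fin k → ℕ} (hp : ∀ l, p l % 60 = 1) {f : ℕ} (hf : f ∣ 15) :
    jacobiSym ((∏ l, p l : ℕ) : ℤ) f = 1 := by
  refine J_f ?_ hf
  have : ∀ s : Finset (Fin k), (∏ l ∈ s, p l) % 60 = 1 := by
    classical
    intro s
    induction s using Finset.induction_on with
    | empty => rfl
    | insert a s ha ih => rw [Finset.prod_insert ha, Nat.mul_mod, hp a, ih]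
  exact this Finset.univ

section

variable {k m f : ℕ} {p p' p₀ : Fin k → ℕ}

theorem samePat_f (hm0 : m ≠ 0) (h : SamePat m p p') (hp : ∀ l, p l % 60 = 1)
    (hp' : ∀ l, p' l % 60 = 1) (hf : f ∣ 15) : SamePat (f * m) p p' := by
  intro l q hq
  have hqp := Nat.prime_of_mem_primeFactors hq
  rcases (Nat.Prime.dvd_mul hqp).1 (Nat.dvd_of_mem_primeFactors hq) with h1 | h1
  · rw [J_f (hp l) (h1.trans hf), J_f (hp' l) (h1.trans hf)]
  · exact h l q (Nat.mem_primeFactors.2 ⟨hqp, h1, hm0⟩)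

theorem adm_f (h : Adm m p) (hp : ∀ l, p l % 60 = 1) (hf : f ∣ 15) : Adm (f * m) p := by
  refine ⟨h.prime, h.four, fun l hd => ?_, h.inj⟩
  rcases (Nat.Prime.dvd_mul (h.prime l)).1 hd with h1 | h1
  · have h2 := Nat.le_of_dvd (by norm_num) (h1.trans hf)
    have h3 := hp l
    have h4 := (h.prime l).two_le
    omega
  · exact h.ndvd l h1

/-- no bad vector for `f m` -/
def GoodF (f k m : ℕ) (p : Fin k → ℕ) : Prop :=
  ∃ x : Fin k → ℕ, SamePat m x p ∧ (∀ l, x l % 60 = 1) ∧ Good (f * m) x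

theorem goodF_congr (h : SamePat m p p') (hg : GoodF f k m p) : GoodF f k m p' := by
  obtain ⟨x, h1, h2, h3⟩ := hg
  exact ⟨x, h1.trans' h, h2, h3⟩

theorem flipF (hf : f ∣ 15) (hm0 : m ≠ 0) (hsq : Squarefree (f * m)) (hk : 0 < k)
    (h4 : (f * m) % 4 = 3) (hp : Adm m p₀) (h60 : ∀ l, p₀ l % 60 = 1) (hg : GoodF f k m p₀) :
    ∃ b : Fin k → Fin k → ℤ, (∀ l l', b l l' = 1 ∨ b l l' = -1) ∧
      ∀ p : Fin k → ℕ, Adm m p → (∀ l, p l % 60 = 1) → SamePat m p p₀ →
        (∀ l l', l < l' → jacobiSym (p l) (p l') = b l l') → Redei (f * (m * ∏ l, p l)) := by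
  obtain ⟨x, h1, h2, h3⟩ := hg
  have hg' : Good (f * m) p₀ := good_congr hsq (samePat_f hm0 h1 h2 h60 hf) h3
  obtain ⟨b, hb1, hb2⟩ := H12.flip k (f * m) p₀ hk hsq h4 (adm_f hp h60 hf) hg'
  refine ⟨b, hb1, fun p hp' hp60 hs hb => ?_⟩
  have := hb2 p (adm_f hp' hp60 hf) (samePat_f hm0 hs hp60 h60 hf) hb
  rwa [mul_assoc] at this

end

section

variable {k m f : ℕ} {j : Fin k → ℕ}

theorem mem_box {p : Fin k → ℕ} (hp : p ∈ Fintype.piFinset fun l => PB (j l)) :
    ∀ l, p l % 60 = 1 := by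
  rw [Fintype.mem_piFinset] at hp
  exact fun l => (H12.mem_PB (hp l)).2.2.2

open Classical in
theorem count_F (hk : 0 < k) (hf : f ∣ 15) (hsq : Squarefree (f * m)) {a : ℕ} (ha : a ∣ f * m)
    (ha1 : a ≠ 1) (hj : ∀ l, m < 2 ^ j l) (c : Prop) [Decidable c] (ε : ℕ → ℤ)
    (hε : ∀ q ∈ a.primeFactors, ε q = 1 ∨ ε q = -1) (B : (Fin k → ℕ) → Prop)
    (hB : ∀ p, B p → c ∧ (∀ l, jacobiSym (p l) a = 1) ∧
      ∀ q ∈ a.primeFactors, jacobiSym ((∏ l, p l : ℕ) : ℤ) q * ε q = 1)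
    (hex : a ∣ f → c → ¬ ∀ q ∈ a.primeFactors, ε q = 1) :
    (((Fintype.piFinset fun l => PB (j l)).filter B).card : ℝ) ≤
      (if c then (1 / 2 : ℝ) ^ (k - 1) * (1 / 2 : ℝ) ^ (Nat.gcd a m).primeFactors.card *
        (∏ l, ((PB (j l)).card : ℝ)) else 0) + 2 * Er j (Nat.gcd a m) := by
  have hE0 := Er_nonneg (j := j) (Nat.gcd a m)
  have hN0 : 0 ≤ ∏ l, ((PB (j l)).card : ℝ) := Finset.prod_nonneg fun _ _ => Nat.cast_nonneg _
  have hm : Squarefree m := hsq.squarefree_of_dvd (Dvd.intro_left f rfl)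
  have hasq : Squarefree a := hsq.squarefree_of_dvd ha
  by_cases h : c
  · rw [if_pos h]
    by_cases ha' : Nat.gcd a m = 1
    · have haf : a ∣ f := Nat.Coprime.dvd_of_dvd_mul_right ha' ha
      have he : (Fintype.piFinset fun l => PB (j l)).filter B = ∅ := by
        refine Finset.filter_eq_empty_iff.2 fun p hp hBp => ?_
        refine hex haf h fun q hq => ?_
        have h1 := (hB p hBp).2.2 q hq
        rwa [J_f_prod (mem_box hp) (((Nat.dvd_of_mem_primeFactors hq).trans haf).trans hf),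
          one_mul] at h1
      rw [he, Finset.card_empty, Nat.cast_zero]
      exact add_nonneg (mul_nonneg (mul_nonneg (pow_nonneg (by norm_num) _)
        (pow_nonneg (by norm_num) _)) hN0) (mul_nonneg (by norm_num) hE0)
    · have hgm : Nat.gcd a m ∣ m := Nat.gcd_dvd_right a m
      have hga : Nat.gcd a m ∣ a := Nat.gcd_dvd_left a m
      have hmono : ∀ q ∈ (Nat.gcd a m).primeFactors, q ∈ a.primeFactors := fun q hq =>
        Nat.primeFactors_mono hga hasq.ne_zero hq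
      refine le_trans ?_ (count_bad hk hm.ne_zero hgm (hm.squarefree_of_dvd hgm) ha' hj ε
        fun q hq => hε q (hmono q hq))
      refine Nat.cast_le.2 (Finset.card_le_card fun p hp => ?_)
      obtain ⟨hp1, hp2⟩ := Finset.mem_filter.1 hp
      obtain ⟨_, h2, h3⟩ := hB p hp2
      refine Finset.mem_filter.2 ⟨hp1, fun l => ?_, fun q hq => h3 q (hmono q hq)⟩
      have hfm : Nat.Coprime f m := Nat.coprime_of_squarefree_mul hsq
      have e : a = Nat.gcd a f * Nat.gcd a m := by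
        rw [← Nat.Coprime.gcd_mul a hfm, Nat.gcd_eq_left ha]
      have h4 := h2 l
      rw [e] at h4
      have hn0 : Nat.gcd a f ≠ 0 := by
        intro h0
        rw [h0, zero_mul] at e
        exact hasq.ne_zero e
      have hn1 : Nat.gcd a m ≠ 0 := by
        intro h0
        rw [h0, mul_zero] at e
        exact hasq.ne_zero e
      haveI : NeZero (Nat.gcd a f) := ⟨hn0⟩
      haveI : NeZero (Nat.gcd a m) := ⟨hn1⟩
      rw [jacobiSym.mul_right, J_f (mem_box hp1 l) ((Nat.gcd_dvd_right a f).trans hf),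
        one_mul] at h4
      exact h4
  · rw [if_neg h, zero_add]
    have he : (Fintype.piFinset fun l => PB (j l)).filter B = ∅ :=
      Finset.filter_eq_empty_iff.2 fun p hp hBp => h (hB p hBp).1
    rw [he, Finset.card_empty, Nat.cast_zero]
    exact mul_nonneg (by norm_num) hE0

/-- there are no bad vectors supported on `f` -/
structure Ex (f m : ℕ) : Prop where
  R : ∀ a, a ∣ f → a ≠ 1 → (∀ q ∈ (f * m / a).primeFactors, jacobiSym a q = 1) →
    ¬ ∀ q ∈ a.primeFactors, jacobiSym (f * m / a : ℕ) q = 1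
  L : ∀ a, a ∣ f → a ≠ 1 → (∀ q ∈ (f * m / a).primeFactors, jacobiSym q a = 1) →
    ¬ ∀ q ∈ a.primeFactors, jacobiSym (f * m / q : ℕ) q * jacobiSym q (a / q) = 1

open Classical in
theorem count_RF (hk : 0 < k) (hf : f ∣ 15) (hsq : Squarefree (f * m)) {a : ℕ} (ha : a ∣ f * m)
    (ha1 : a ≠ 1) (hj : ∀ l, m < 2 ^ j l) (hex : Ex f m) :
    (((Fintype.piFinset fun l => PB (j l)).filter (fun p => RBad (f * m) p a)).card : ℝ) ≤
      (if ∀ q ∈ (f * m / a).primeFactors, jacobiSym a q = 1 then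
        (1 / 2 : ℝ) ^ (k - 1) * (1 / 2 : ℝ) ^ (Nat.gcd a m).primeFactors.card *
        (∏ l, ((PB (j l)).card : ℝ)) else 0) + 2 * Er j (Nat.gcd a m) := by
  refine count_F hk hf hsq ha ha1 hj _ (fun q => jacobiSym (f * m / a : ℕ) q) (fun q hq =>
    J_sign_cop (cop_of_dvd hsq ha (Nat.dvd_of_mem_primeFactors hq))) _ (fun p hp => ?_)
    (fun haf hc => hex.R a haf ha1 hc)
  refine ⟨hp.2.1, hp.1, fun q hq => ?_⟩
  have := hp.2.2 q hq
  rwa [Nat.cast_mul, jacobiSym.mul_left] at this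

open Classical in
theorem count_LF (hk : 0 < k) (hf : f ∣ 15) (hsq : Squarefree (f * m)) {a : ℕ} (ha : a ∣ f * m)
    (ha1 : a ≠ 1) (hj : ∀ l, m < 2 ^ j l) (hex : Ex f m) :
    (((Fintype.piFinset fun l => PB (j l)).filter (fun p => LBad (f * m) p a)).card : ℝ) ≤
      (if ∀ q ∈ (f * m / a).primeFactors, jacobiSym q a = 1 then
        (1 / 2 : ℝ) ^ (k - 1) * (1 / 2 : ℝ) ^ (Nat.gcd a m).primeFactors.card *
        (∏ l, ((PB (j l)).card : ℝ)) else 0) + 2 * Er j (Nat.gcd a m) := by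
  have hasq := hsq.squarefree_of_dvd ha
  refine count_F hk hf hsq ha ha1 hj _
    (fun q => jacobiSym (f * m / q : ℕ) q * jacobiSym q (a / q)) (fun q hq => sign_mul
        (J_sign_cop (cop_div hsq ((Nat.dvd_of_mem_primeFactors hq).trans ha)))
        (J_sign_cop (cop_div hasq (Nat.dvd_of_mem_primeFactors hq)).symm)) _ (fun p hp => ?_)
    (fun haf hc => hex.L a haf ha1 hc)
  refine ⟨hp.2.1, hp.1, fun q hq => ?_⟩
  have := hp.2.2 q hq
  rwa [Nat.cast_mul, jacobiSym.mul_left, mul_assoc] at this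

open Classical in
theorem union_bdF : (((Fintype.piFinset fun l => PB (j l)).filter
      (fun p => ¬ GoodF f k m p)).card : ℝ) ≤
      ∑ a ∈ (f * m).divisors.erase 1,
        ((((Fintype.piFinset fun l => PB (j l)).filter (fun p => RBad (f * m) p a)).card : ℝ) +
        (((Fintype.piFinset fun l => PB (j l)).filter (fun p => LBad (f * m) p a)).card : ℝ)) := by
  have hsub : (Fintype.piFinset fun l => PB (j l)).filter (fun p => ¬ GoodF f k m p) ⊆
      ((f * m).divisors.erase 1).biUnion fun a =>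
        ((Fintype.piFinset fun l => PB (j l)).filter (fun p => RBad (f * m) p a)) ∪
        ((Fintype.piFinset fun l => PB (j l)).filter (fun p => LBad (f * m) p a)) := by
    intro p hp
    obtain ⟨hp1, hp2⟩ := Finset.mem_filter.1 hp
    have hp3 : ¬ Good (f * m) p := fun h => hp2 ⟨p, fun _ _ _ => rfl, mem_box hp1, h⟩
    unfold Good at hp3
    push Not at hp3
    obtain ⟨a, ha, ha1, hab⟩ := hp3
    refine Finset.mem_biUnion.2 ⟨a, Finset.mem_erase.2 ⟨ha1, ha⟩, ?_⟩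
    rw [Finset.mem_union, Finset.mem_filter, Finset.mem_filter]
    by_cases hR : RBad (f * m) p a
    · exact Or.inl ⟨hp1, hR⟩
    · exact Or.inr ⟨hp1, hab hR⟩
  have h2 := (Finset.card_le_card hsub).trans Finset.card_biUnion_le
  refine (Nat.cast_le.2 h2).trans ?_
  rw [Nat.cast_sum]
  refine Finset.sum_le_sum fun a _ => ?_
  rw [← Nat.cast_add]
  exact Nat.cast_le.2 (Finset.card_union_le _ _)

theorem sum_ErF (hf : f.divisors.card ≤ 4) (hsq : Squarefree (f * m)) :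
    ∑ a ∈ (f * m).divisors.erase 1, Er j (Nat.gcd a m) ≤
    4 * ∑ l, (∏ l' ∈ univ.erase l, ((PB (j l')).card : ℝ)) *
      ∑ a ∈ m.divisors, ∑ e ∈ a.divisors.erase 1, |SP (j l) e| := by
  have hfm : Nat.Coprime f m := Nat.coprime_of_squarefree_mul hsq
  have hEn := fun a => Er_nonneg (j := j) a
  have hEe : ∑ a ∈ m.divisors, Er j a =
      ∑ l, (∏ l' ∈ univ.erase l, ((PB (j l')).card : ℝ)) *
      ∑ a ∈ m.divisors, ∑ e ∈ a.divisors.erase 1, |SP (j l) e| := by
    unfold Er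
    rw [Finset.sum_comm]
    refine Finset.sum_congr rfl fun l _ => ?_
    rw [Finset.mul_sum]
  rw [← hEe]
  have h1 : ∑ a ∈ (f * m).divisors.erase 1, Er j (Nat.gcd a m) ≤
      ∑ a ∈ (f * m).divisors, Er j (Nat.gcd a m) :=
    Finset.sum_le_sum_of_subset_of_nonneg (Finset.erase_subset _ _) fun a _ _ => hEn _
  have h2 : ∑ a ∈ (f * m).divisors, Er j (Nat.gcd a m) =
      ∑ x ∈ (f * m).divisors.image (fun a => (Nat.gcd a f, Nat.gcd a m)), Er j x.2 := by
    rw [Finset.sum_image]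
    intro x hx y hy hxy
    have hx' := Nat.dvd_of_mem_divisors (Finset.mem_coe.1 hx)
    have hy' := Nat.dvd_of_mem_divisors (Finset.mem_coe.1 hy)
    simp only [Prod.mk.injEq] at hxy
    rw [← Nat.gcd_eq_left hx', ← Nat.gcd_eq_left hy', Nat.Coprime.gcd_mul x hfm,
      Nat.Coprime.gcd_mul y hfm, hxy.1, hxy.2]
  have hf0 : f ≠ 0 := fun h => hsq.ne_zero (by rw [h, zero_mul])
  have hm0 : m ≠ 0 := fun h => hsq.ne_zero (by rw [h, mul_zero])
  have h3 : ∑ x ∈ (f * m).divisors.image (fun a => (Nat.gcd a f, Nat.gcd a m)), Er j x.2 ≤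
      ∑ x ∈ f.divisors ×ˢ m.divisors, Er j x.2 := by
    refine Finset.sum_le_sum_of_subset_of_nonneg ?_ fun _ _ _ => hEn _
    intro x hx
    obtain ⟨a, ha, rfl⟩ := Finset.mem_image.1 hx
    rw [Finset.mem_product, Nat.mem_divisors, Nat.mem_divisors]
    exact ⟨⟨Nat.gcd_dvd_right _ _, hf0⟩, Nat.gcd_dvd_right _ _, hm0⟩
  rw [Finset.sum_product] at h3
  simp only [Finset.sum_const, nsmul_eq_mul] at h3
  have h4 : (f.divisors.card : ℝ) ≤ 4 := by exact_mod_cast hf
  have h5 : 0 ≤ ∑ a ∈ m.divisors, Er j a := Finset.sum_nonneg fun a _ => hEn a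
  calc _ ≤ _ := h1
    _ ≤ (f.divisors.card : ℝ) * ∑ a ∈ m.divisors, Er j a := h2.le.trans h3
    _ ≤ _ := mul_le_mul_of_nonneg_right h4 h5

theorem pow_gcd {a : ℕ} (hf : f.primeFactors.card ≤ 2) (hsq : Squarefree (f * m))
    (ha : a ∣ f * m) : (1 / 2 : ℝ) ^ (Nat.gcd a m).primeFactors.card ≤
      4 * (1 / 2 : ℝ) ^ a.primeFactors.card := by
  have hf0 : f ≠ 0 := fun h => hsq.ne_zero (by rw [h, zero_mul])
  have hm0 : m ≠ 0 := fun h => hsq.ne_zero (by rw [h, mul_zero])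
  have ha0 : a ≠ 0 := fun h => hsq.ne_zero (zero_dvd_iff.1 (h ▸ ha))
  have h1 : a.primeFactors ⊆ (Nat.gcd a m).primeFactors ∪ f.primeFactors := by
    intro q hq
    have hqp := Nat.prime_of_mem_primeFactors hq
    have hqa := Nat.dvd_of_mem_primeFactors hq
    rw [Finset.mem_union, Nat.mem_primeFactors, Nat.mem_primeFactors]
    rcases (Nat.Prime.dvd_mul hqp).1 (hqa.trans ha) with h | h
    · exact Or.inr ⟨hqp, h, hf0⟩
    · exact Or.inl ⟨hqp, Nat.dvd_gcd hqa h, Nat.gcd_ne_zero_left ha0⟩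
  have h2 := (Finset.card_le_card h1).trans (Finset.card_union_le _ _)
  have h3 : a.primeFactors.card ≤ (Nat.gcd a m).primeFactors.card + 2 := by omega
  have h4 : (1 / 2 : ℝ) ^ ((Nat.gcd a m).primeFactors.card + 2) ≤
      (1 / 2 : ℝ) ^ a.primeFactors.card :=
    pow_le_pow_of_le_one (by norm_num) (by norm_num) h3
  rw [pow_add] at h4
  linarith

theorem fin_arithF {X A B N w g g' e E : ℝ} (h : X ≤ (A + 2 * e) + (B + 2 * e))
    (hA : A ≤ (4 * w) * N * g) (hB : B ≤ (4 * w) * N * g') (he : e ≤ 4 * E) :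
    X ≤ N * (w * (4 * (g + g'))) + 16 * E := by
  have : N * (w * (4 * (g + g'))) = (4 * w) * N * g + (4 * w) * N * g' := by ring
  linarith

open Classical in
theorem firstF (hk : 0 < k) (hf : f ∣ 15) (hsq : Squarefree (f * m))
    (hj : ∀ l, m < 2 ^ j l) (hex : Ex f m) :
    (((Fintype.piFinset fun l => PB (j l)).filter (fun p => ¬ GoodF f k m p)).card : ℝ) ≤
      (∏ l, ((PB (j l)).card : ℝ)) * ((1 / 2 : ℝ) ^ (k - 1) * (4 * (G (f * m) + G' (f * m)))) +
        16 * ∑ l, (∏ l' ∈ univ.erase l, ((PB (j l')).card : ℝ)) *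
          ∑ a ∈ m.divisors, ∑ e ∈ a.divisors.erase 1, |SP (j l) e| := by
  have hfd : f.divisors.card ≤ 4 := by
    have h1 : f.divisors ⊆ (15 : ℕ).divisors := Nat.divisors_subset_of_dvd (by norm_num) hf
    exact (Finset.card_le_card h1).trans (by decide)
  have hfp : f.primeFactors.card ≤ 2 := by
    have h1 : f.primeFactors ⊆ (15 : ℕ).primeFactors := Nat.primeFactors_mono hf (by norm_num)
    refine (Finset.card_le_card h1).trans ?_
    have h2 : (15 : ℕ).primeFactors = {3, 5} := by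
      rw [show (15 : ℕ) = 3 * 5 by norm_num, Nat.primeFactors_mul (by norm_num) (by norm_num),
        Nat.prime_three.primeFactors, Nat.prime_five.primeFactors]
      rfl
    rw [h2]
    decide
  have hN0 : 0 ≤ ∏ l, ((PB (j l)).card : ℝ) := Finset.prod_nonneg fun _ _ => Nat.cast_nonneg _
  have hw0 : (0 : ℝ) ≤ 4 * (1 / 2 : ℝ) ^ (k - 1) := by positivity
  have hpt : ∀ a ∈ (f * m).divisors.erase 1, ∀ (c : Prop) [Decidable c],
      (if c then (1 / 2 : ℝ) ^ (k - 1) * (1 / 2 : ℝ) ^ (Nat.gcd a m).primeFactors.card *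
        (∏ l, ((PB (j l)).card : ℝ)) else 0) ≤
      if c then (4 * (1 / 2 : ℝ) ^ (k - 1)) * (1 / 2 : ℝ) ^ a.primeFactors.card *
        (∏ l, ((PB (j l)).card : ℝ)) else 0 := by
    intro a ha c _
    have h1 := pow_gcd hfp hsq (Nat.dvd_of_mem_divisors (Finset.mem_of_mem_erase ha))
    split_ifs
    · refine mul_le_mul_of_nonneg_right ?_ hN0
      calc _ ≤ (1 / 2 : ℝ) ^ (k - 1) * (4 * (1 / 2 : ℝ) ^ a.primeFactors.card) :=
            mul_le_mul_of_nonneg_left h1 (by positivity)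
        _ = _ := by ring
    · exact le_refl _
  have h3 := sum_ind (m := f * m) _ _ hN0 hw0
    (fun a => ∀ q ∈ (f * m / a).primeFactors, jacobiSym (a : ℤ) q = 1)
  have h4 := sum_ind (m := f * m) _ _ hN0 hw0
    (fun a => ∀ q ∈ (f * m / a).primeFactors, jacobiSym (q : ℤ) a = 1)
  have h5 := sum_ErF (j := j) hfd hsq
  have hRL : ∑ a ∈ (f * m).divisors.erase 1,
        ((((Fintype.piFinset fun l => PB (j l)).filter (fun p => RBad (f * m) p a)).card : ℝ) +
        (((Fintype.piFinset fun l => PB (j l)).filter (fun p => LBad (f * m) p a)).card : ℝ)) ≤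
      ∑ a ∈ (f * m).divisors.erase 1,
        (((if ∀ q ∈ (f * m / a).primeFactors, jacobiSym (a : ℤ) q = 1 then
          (4 * (1 / 2 : ℝ) ^ (k - 1)) * (1 / 2 : ℝ) ^ a.primeFactors.card *
            (∏ l, ((PB (j l)).card : ℝ)) else 0) + 2 * Er j (Nat.gcd a m)) +
        ((if ∀ q ∈ (f * m / a).primeFactors, jacobiSym (q : ℤ) a = 1 then
          (4 * (1 / 2 : ℝ) ^ (k - 1)) * (1 / 2 : ℝ) ^ a.primeFactors.card *
            (∏ l, ((PB (j l)).card : ℝ)) else 0) + 2 * Er j (Nat.gcd a m))) := by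
    refine Finset.sum_le_sum fun a ha => ?_
    obtain ⟨ha1, ha'⟩ := Finset.mem_erase.1 ha
    exact add_le_add
      ((count_RF hk hf hsq (Nat.dvd_of_mem_divisors ha') ha1 hj hex).trans
        (add_le_add (hpt a ha _) le_rfl))
      ((count_LF hk hf hsq (Nat.dvd_of_mem_divisors ha') ha1 hj hex).trans
        (add_le_add (hpt a ha _) le_rfl))
  have h2 := union_bdF.trans hRL
  rw [Finset.sum_add_distrib, Finset.sum_add_distrib, Finset.sum_add_distrib, ← Finset.mul_sum]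
    at h2
  have h6 : G (f * m) = ∑ a ∈ (f * m).divisors.filter
      (fun a => ∀ q ∈ (f * m / a).primeFactors, jacobiSym (a : ℤ) q = 1),
      (1 / 2 : ℝ) ^ a.primeFactors.card := by
    unfold G; congr
  have h7 : G' (f * m) = ∑ a ∈ (f * m).divisors.filter
      (fun a => ∀ q ∈ (f * m / a).primeFactors, jacobiSym (q : ℤ) a = 1),
      (1 / 2 : ℝ) ^ a.primeFactors.card := by
    unfold G'; congr
  rw [← h6] at h3
  rw [← h7] at h4
  exact fin_arithF h2 h3 h4 h5

end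

/-- sums over multiples -/
theorem mult_sumF {C : ℝ} (hG : ∀ Y : ℕ, 2 ≤ Y →
    ∑ m ∈ (Icc 1 Y).filter (fun m => Odd m ∧ Squarefree m), (G m + G' m) / (m : ℝ) ≤ C * log Y)
    {r c : ℕ} (hc0 : 0 < c) (hc2 : Odd c) (hcs : Squarefree c) (hr : r % 2 = 1)
    (hcr : ∀ m, m % 60 = r → Nat.Coprime c m) {Y : ℕ} (hY : 2 ≤ Y) :
    ∑ m ∈ (Icc 1 Y).filter (fun m => Squarefree m ∧ m % 60 = r),
      (G (c * m) + G' (c * m)) / (m : ℝ) ≤ c * (C * log ((c * Y : ℕ) : ℝ)) := by
  have hc0' : (0 : ℝ) < c := by exact_mod_cast hc0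
  have h1 := hG (c * Y) (le_trans hY (Nat.le_mul_of_pos_left Y hc0))
  refine le_trans ?_ (mul_le_mul_of_nonneg_left h1 hc0'.le)
  rw [Finset.mul_sum]
  have h2 : ∑ m ∈ (Icc 1 Y).filter (fun m => Squarefree m ∧ m % 60 = r),
      (G (c * m) + G' (c * m)) / (m : ℝ) =
      ∑ n ∈ ((Icc 1 Y).filter (fun m => Squarefree m ∧ m % 60 = r)).image (fun m => c * m),
        (c : ℝ) * ((G n + G' n) / (n : ℝ)) := by
    rw [Finset.sum_image]
    · refine Finset.sum_congr rfl fun m hm => ?_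
      rw [Finset.mem_filter, Finset.mem_Icc] at hm
      have : (m : ℝ) ≠ 0 := by exact_mod_cast (by omega : m ≠ 0)
      push_cast
      field_simp
    · intro x _ y _ h
      exact Nat.eq_of_mul_eq_mul_left hc0 h
  rw [h2]
  refine Finset.sum_le_sum_of_subset_of_nonneg ?_ fun n _ _ => ?_
  · intro n hn
    rw [Finset.mem_image] at hn
    obtain ⟨m, hm, rfl⟩ := hn
    rw [Finset.mem_filter, Finset.mem_Icc] at hm ⊢
    obtain ⟨⟨h3, h4⟩, h5, h6⟩ := hm
    refine ⟨⟨Nat.mul_pos hc0 h3, Nat.mul_le_mul_left c h4⟩, ?_, ?_⟩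
    · rw [Nat.odd_mul]
      exact ⟨hc2, Nat.odd_iff.2 (by omega)⟩
    · rw [Nat.squarefree_mul (hcr m h6)]
      exact ⟨hcs, h5⟩
  · exact mul_nonneg hc0'.le (div_nonneg (add_nonneg (G_nonneg _) (G'_nonneg _))
      (Nat.cast_nonneg _))

theorem gavgF {r f : ℕ} (hf : f ∣ 15) (hr : r % 2 = 1)
    (hcr : ∀ m, m % 60 = r → Nat.Coprime f m) : ∃ C : ℝ, 0 < C ∧ ∀ Y : ℕ, 2 ≤ Y →
    ∑ m ∈ (Icc 1 Y).filter (fun m => Squarefree m ∧ m % 60 = r),
      4 * (G (f * m) + G' (f * m)) / (m : ℝ) ≤ C * Real.log Y := by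
  obtain ⟨C, hC, hG⟩ := gAvg
  refine ⟨300 * C, by positivity, fun Y hY => ?_⟩
  have hf0 : 0 < f := Nat.pos_of_dvd_of_pos hf (by norm_num)
  have hf15 : f ≤ 15 := Nat.le_of_dvd (by norm_num) hf
  have hfo : Odd f := Odd.of_dvd_nat (by decide) hf
  have h15 : Squarefree 15 := by
    rw [show (15 : ℕ) = 3 * 5 by norm_num, Nat.squarefree_mul (by norm_num)]
    exact ⟨Nat.prime_three.squarefree, Nat.prime_five.squarefree⟩
  have hfs : Squarefree f := h15.squarefree_of_dvd hf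
  have h1 := mult_sumF hG hf0 hfo hfs hr hcr hY
  have hY' : (2 : ℝ) ≤ Y := by exact_mod_cast hY
  have hl2 : 0 < Real.log 2 := Real.log_pos (by norm_num)
  have hlY : Real.log 2 ≤ Real.log Y := Real.log_le_log (by norm_num) hY'
  have hY0 : (0 : ℝ) < Y := by positivity
  have hlf : Real.log f ≤ 4 * Real.log 2 := by
    have h2 : Real.log f ≤ Real.log (2 ^ 4) := by
      refine Real.log_le_log (by exact_mod_cast hf0) ?_
      have : (f : ℝ) ≤ 15 := by exact_mod_cast hf15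
      linarith
    rwa [Real.log_pow] at h2
  have hL : Real.log ((f * Y : ℕ) : ℝ) ≤ 5 * Real.log Y := by
    push_cast
    rw [Real.log_mul (by exact_mod_cast hf0.ne') hY0.ne']
    linarith
  have h3 : ∑ m ∈ (Icc 1 Y).filter (fun m => Squarefree m ∧ m % 60 = r),
      4 * (G (f * m) + G' (f * m)) / (m : ℝ) =
      4 * ∑ m ∈ (Icc 1 Y).filter (fun m => Squarefree m ∧ m % 60 = r),
        (G (f * m) + G' (f * m)) / (m : ℝ) := by
    rw [Finset.mul_sum]
    exact Finset.sum_congr rfl fun m _ => mul_div_assoc _ _ _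
  rw [h3]
  have hf15' : (f : ℝ) ≤ 15 := by exact_mod_cast hf15
  have h0 : 0 ≤ Real.log Y := by linarith
  have h4 : (f : ℝ) * (C * Real.log ((f * Y : ℕ) : ℝ)) ≤ 15 * (C * (5 * Real.log Y)) := by
    have h5 : C * Real.log ((f * Y : ℕ) : ℝ) ≤ C * (5 * Real.log Y) :=
      mul_le_mul_of_nonneg_left hL hC.le
    have h6 : 0 ≤ C * (5 * Real.log Y) := by positivity
    calc (f : ℝ) * (C * Real.log ((f * Y : ℕ) : ℝ)) ≤ f * (C * (5 * Real.log Y)) :=
          mul_le_mul_of_nonneg_left h5 (Nat.cast_nonneg f)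
      _ ≤ _ := mul_le_mul_of_nonneg_right hf15' h6
  linarith

theorem ex3 {m : ℕ} (hm : m % 60 = 41 ∨ m % 60 = 29) : Ex 3 m := by
  have h3 : jacobiSym (m : ℤ) 3 = -1 := by
    rw [jacobiSym.mod_left' (show (m : ℤ) % (3 : ℕ) = 2 % (3 : ℕ) by omega)]
    norm_num
  refine ⟨fun a ha ha1 _ h => ?_, fun a ha ha1 _ h => ?_⟩
  · have ha3 : a = 3 := ((Nat.dvd_prime Nat.prime_three).1 ha).resolve_left ha1
    subst ha3
    have h1 := h 3 (Nat.mem_primeFactors.2 ⟨Nat.prime_three, dvd_rfl, by norm_num⟩)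
    rw [Nat.mul_div_cancel_left m (by norm_num), h3] at h1
    norm_num at h1
  · have ha3 : a = 3 := ((Nat.dvd_prime Nat.prime_three).1 ha).resolve_left ha1
    subst ha3
    have h1 := h 3 (Nat.mem_primeFactors.2 ⟨Nat.prime_three, dvd_rfl, by norm_num⟩)
    rw [Nat.mul_div_cancel_left m (by norm_num), h3] at h1
    norm_num at h1

theorem ex5 {m : ℕ} (hm : m % 60 = 7) : Ex 5 m := by
  have h3 : jacobiSym (m : ℤ) 5 = -1 := by
    rw [jacobiSym.mod_left' (show (m : ℤ) % (5 : ℕ) = 2 % (5 : ℕ) by omega)]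
    norm_num
  refine ⟨fun a ha ha1 _ h => ?_, fun a ha ha1 _ h => ?_⟩
  · have ha3 : a = 5 := ((Nat.dvd_prime Nat.prime_five).1 ha).resolve_left ha1
    subst ha3
    have h1 := h 5 (Nat.mem_primeFactors.2 ⟨Nat.prime_five, dvd_rfl, by norm_num⟩)
    rw [Nat.mul_div_cancel_left m (by norm_num), h3] at h1
    norm_num at h1
  · have ha3 : a = 5 := ((Nat.dvd_prime Nat.prime_five).1 ha).resolve_left ha1
    subst ha3
    have h1 := h 5 (Nat.mem_primeFactors.2 ⟨Nat.prime_five, dvd_rfl, by norm_num⟩)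
    rw [Nat.mul_div_cancel_left m (by norm_num), h3] at h1
    norm_num at h1

theorem dvd15 {a : ℕ} (ha : a ∣ 15) (ha1 : a ≠ 1) : a = 3 ∨ a = 5 ∨ a = 15 := by
  have h1 : a ≤ 15 := Nat.le_of_dvd (by norm_num) ha
  interval_cases a <;> omega

theorem ex15 {m : ℕ} (hm : m % 60 = 17) : Ex 15 m := by
  have hm0 : m ≠ 0 := by omega
  have h3 : jacobiSym (m : ℤ) 3 = -1 := by
    rw [jacobiSym.mod_left' (show (m : ℤ) % (3 : ℕ) = 2 % (3 : ℕ) by omega)]
    norm_num
  have e3 : 15 * m / 3 = 5 * m := by omega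
  have e5 : 15 * m / 5 = 3 * m := by omega
  refine ⟨fun a ha ha1 hc h => ?_, fun a ha ha1 hc h => ?_⟩
  · rcases dvd15 ha ha1 with rfl | rfl | rfl
    · have h1 := hc 5 (Nat.mem_primeFactors.2 ⟨Nat.prime_five, by rw [e3]; exact Dvd.intro m rfl,
        by omega⟩)
      norm_num at h1
    · have h1 := hc 3 (Nat.mem_primeFactors.2 ⟨Nat.prime_three, by rw [e5]; exact Dvd.intro m rfl,
        by omega⟩)
      norm_num at h1
    · have h1 := h 3 (Nat.mem_primeFactors.2 ⟨Nat.prime_three, by norm_num, by norm_num⟩)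
      rw [Nat.mul_div_cancel_left m (by norm_num), h3] at h1
      norm_num at h1
  · rcases dvd15 ha ha1 with rfl | rfl | rfl
    · have h1 := hc 5 (Nat.mem_primeFactors.2 ⟨Nat.prime_five, by rw [e3]; exact Dvd.intro m rfl,
        by omega⟩)
      norm_num at h1
    · have h1 := hc 3 (Nat.mem_primeFactors.2 ⟨Nat.prime_three, by rw [e5]; exact Dvd.intro m rfl,
        by omega⟩)
      norm_num at h1
    · have h1 := h 3 (Nat.mem_primeFactors.2 ⟨Nat.prime_three, by norm_num, by norm_num⟩)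
      rw [e3] at h1
      have h2 : jacobiSym ((5 * m : ℕ) : ℤ) 3 = 1 := by
        rw [jacobiSym.mod_left' (show ((5 * m : ℕ) : ℤ) % (3 : ℕ) = 1 % (3 : ℕ) by omega)]
        norm_num
      rw [h2] at h1
      norm_num at h1

/-- the input, `3` or `5` ramified -/
noncomputable def dataF (f r : ℕ) (hf : f ∣ 15) (hlt : r < 60) (hc : Nat.Coprime r 30)
    (h4 : (f * r) % 4 = 3) (hr2 : 2 ≤ r) (hrodd : r % 2 = 1) (hex : ∀ m, m % 60 = r → Ex f m) :
    Data r := by
  have hcop : ∀ m, m % 60 = r → Nat.Coprime f m := by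
    intro m h60
    have h1 : Nat.Coprime m 30 := by
      have h2 : m % 30 = r % 30 := by omega
      rw [Nat.Coprime, Nat.gcd_comm, Nat.gcd_rec] at hc ⊢
      rw [h2]; exact hc
    exact (Nat.Coprime.coprime_dvd_right (hf.trans (by norm_num)) h1).symm
  have h15 : Squarefree 15 := by
    rw [show (15 : ℕ) = 3 * 5 by norm_num, Nat.squarefree_mul (by norm_num)]
    exact ⟨Nat.prime_three.squarefree, Nat.prime_five.squarefree⟩
  have hsq : ∀ m, Squarefree m → m % 60 = r → Squarefree (f * m) := fun m hm h60 =>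
    (Nat.squarefree_mul (hcop m h60)).2 ⟨h15.squarefree_of_dvd hf, hm⟩
  have h4' : ∀ m, m % 60 = r → (f * m) % 4 = 3 := by
    intro m h60
    have h1 : m % 4 = r % 4 := by omega
    rw [Nat.mul_mod, h1, ← Nat.mul_mod, h4]
  exact
  { Gd := GoodF f
    g := fun m => 4 * (G (f * m) + G' (f * m))
    Cr := fun n => Redei (f * n)
    two_le := hr2
    lt := hlt
    cop := hc
    odd := hrodd
    g_nonneg := fun m => mul_nonneg (by norm_num) (add_nonneg (G_nonneg _) (G'_nonneg _))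
    gavg := gavgF hf hrodd hcop
    congr := fun _ h hg => goodF_congr h hg
    flip := fun k m p₀ hk hm h60 hp hp60 hg =>
      flipF hf hm.ne_zero (hsq m hm h60) hk (h4' m h60) hp hp60 hg
    first := fun k m j hk hm h60 hj => firstF hk hf (hsq m hm h60) hj (hex m h60) }

end Vale.Agent.P017.H735D
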