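import Vale.Agent.P017.H735.D.Dens

/-!
# Passing to multiples
-/

set_option linter.all false

namespace Vale.Agent.P017.H735D

open Finset Real Vale.Agent.P017.H262

theorem transfer {r r' : ℕ} (f : ℕ) (D : Data r) (hf : 0 < f) (P : ℕ → Prop)
    (hP : ∀ n, Squarefree n → n % 60 = r → D.Cr n →
      Squarefree (f * n) ∧ (f * n) % 60 = r' ∧ P (f * n)) :
    ∃ c : ℝ, 0 < c ∧ ∃ X₀ : ℕ, ∀ X : ℕ, X₀ ≤ X →
      c * X ≤ ({d : ℕ | d ≤ X ∧ Squarefree d ∧ d % 60 = r' ∧ P d}.ncard : ℝ) := by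
  classical
  obtain ⟨c, hc, X₀, h⟩ := densR D
  have hf' : (0 : ℝ) < f := by exact_mod_cast hf
  refine ⟨c / (2 * f), by positivity, f * (X₀ + 1), fun X hX => ?_⟩
  have hY : X₀ + 1 ≤ X / f := (Nat.le_div_iff_mul_le hf).2 (by rw [mul_comm]; exact hX)
  have h1 := h (X / f) (by omega)
  have h2 : (X : ℝ) ≤ 2 * f * ((X / f : ℕ) : ℝ) := by
    have h3 : X < f * (X / f + 1) := Nat.lt_mul_div_succ X hf
    have h4 : X ≤ f * (X / f + X / f) := h3.le.trans (Nat.mul_le_mul_left f (by omega))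
    have h5 : (X : ℝ) ≤ (f : ℝ) * (((X / f : ℕ) : ℝ) + ((X / f : ℕ) : ℝ)) := by exact_mod_cast h4
    linarith
  have h3 : c / (2 * f) * X ≤ c * ((X / f : ℕ) : ℝ) := by
    calc c / (2 * f) * X ≤ c / (2 * f) * (2 * f * ((X / f : ℕ) : ℝ)) :=
          mul_le_mul_of_nonneg_left h2 (by positivity)
      _ = _ := by field_simp
  refine (h3.trans h1).trans ?_
  have hfin : {d : ℕ | d ≤ X ∧ Squarefree d ∧ d % 60 = r' ∧ P d}.Finite :=
    (Set.finite_Iic X).subset fun d hd => hd.1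
  have h4 : ((TR D (X / f)).image (fun n => f * n)).card = (TR D (X / f)).card :=
    Finset.card_image_of_injective _ fun x y hxy => Nat.eq_of_mul_eq_mul_left hf hxy
  rw [← h4, ← Set.ncard_coe_finset]
  refine Nat.cast_le.2 (Set.ncard_le_ncard ?_ hfin)
  intro d hd
  rw [Finset.mem_coe, Finset.mem_image] at hd
  obtain ⟨n, hn, rfl⟩ := hd
  rw [TR, Finset.mem_filter, Finset.mem_Icc] at hn
  obtain ⟨⟨hn1, hnX⟩, hsq, hn60, hR⟩ := hn
  obtain ⟨h5, h6, h7⟩ := hP n hsq hn60 hR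
  refine ⟨?_, h5, h6, h7⟩
  have := (Nat.le_div_iff_mul_le hf).1 hnX
  rwa [mul_comm] at this

end Vale.Agent.P017.H735D
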